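import Vale.Agent.P199.Kurosh.Models

/-! The base data for the final step: a generic element `v`, representatives of the cokernel and dual
test elements. -/

open Module Submodule

namespace P199K

namespace Fin2

/-- Independent functionals take all values. -/
theorem exists_values {F V ι : Type*} [Field F] [AddCommGroup V] [Module F V] [Fintype ι]
    (ψ : ι → V →ₗ[F] F) (h : ∀ γ : ι → F, (∀ x, ∑ i, γ i * ψ i x = 0) → γ = 0) (t : ι → F) :
    ∃ x, ∀ i, ψ i x = t i := by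
  classical
  suffices hs : LinearMap.range (LinearMap.pi ψ) = ⊤ by
    obtain ⟨x, hx⟩ := (hs ▸ Submodule.mem_top : t ∈ LinearMap.range (LinearMap.pi ψ))
    exact ⟨x, fun i => congrFun hx i⟩
  by_contra hne
  obtain ⟨y, -, hy⟩ := SetLike.exists_of_lt (lt_top_iff_ne_top.2 hne)
  obtain ⟨φ, hφ, hle⟩ := Submodule.exists_le_ker_of_notMem hy
  have he : ∀ z : ι → F, φ z = ∑ i, φ (Pi.single i 1) * z i := fun z => by
    conv_lhs => rw [← Finset.univ_sum_single z]
    rw [map_sum]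
    refine Finset.sum_congr rfl fun i _ => ?_
    rw [show (Pi.single i (z i) : ι → F) = z i • Pi.single i 1 by
      rw [← Pi.single_smul', smul_eq_mul, mul_one], map_smul, smul_eq_mul, mul_comm]
  have h0 := h (fun i => φ (Pi.single i 1)) fun x => by
    have := hle ⟨x, rfl⟩
    rw [LinearMap.mem_ker, he] at this
    exact this
  exact hφ (by rw [he]; simp [congrFun h0])

/-- A vector outside a subspace has a trace functional that kills the subspace and takes the value one. -/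
theorem exists_test {S : Stg} {U : Submodule S.F S.C} {y : S.C} (hy : y ∉ U) :
    ∃ z, S.τ (y * z) = 1 ∧ ∀ u ∈ U, S.τ (u * z) = 0 := by
  have : y ∉ S.orth (S.orth U) := by rwa [Stg.orth_orth]
  rw [Stg.mem_orth] at this
  push Not at this
  obtain ⟨z, hz, hne⟩ := this
  refine ⟨(S.τ (y * z))⁻¹ • z, ?_, fun u hu => ?_⟩
  · rw [mul_smul_comm, map_smul, smul_eq_mul, inv_mul_cancel₀ hne]
  · rw [mul_smul_comm, map_smul, Stg.mem_orth'.1 hz u hu, smul_zero]

variable {o : Obj}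

theorem W_le_cent (o : Obj) : o.W ≤ o.S.cent o.θ := inf_le_right

theorem T_eq (o : Obj) : o.T = o.W ⊔ LinearMap.range (o.S.ad o.θ) := by
  refine le_antisymm (fun t ht => ?_) (sup_le inf_le_left le_sup_right)
  obtain ⟨zc, hzc, y, rfl⟩ := Stg.exists_cent_add_ad o.θ t
  refine Submodule.add_mem_sup ⟨?_, hzc⟩ ⟨y, rfl⟩
  have hy : o.S.ad o.θ y ∈ o.T := Submodule.mem_sup_right ⟨y, rfl⟩
  simpa using o.T.sub_mem ht hy

theorem finrank_sup_ad {V : Submodule o.S.F o.S.C} (hV : V ≤ o.S.cent o.θ) :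
    finrank o.S.F ↥(V ⊔ LinearMap.range (o.S.ad o.θ)) + finrank o.S.F (o.S.cent o.θ) =
      finrank o.S.F V + o.S.dim := by
  have hd : Disjoint V (LinearMap.range (o.S.ad o.θ)) :=
    (Stg.cent_disjoint_range_ad o.θ).mono_left hV
  have h := Submodule.finrank_sup_add_finrank_inf_eq V (LinearMap.range (o.S.ad o.θ))
  rw [hd.eq_bot, finrank_bot, add_zero] at h
  have := Stg.finrank_range_ad_add (S := o.S) o.θ
  omega

theorem finrank_Kc (o : Obj) :
    finrank o.S.F o.Kc + o.r = finrank o.S.F (o.S.cent o.θ) := by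
  have h1 := finrank_sup_ad (W_le_cent o)
  rw [← T_eq o] at h1
  have h2 := Stg.finrank_orth_add (S := o.S) o.T
  change finrank o.S.F o.Kc + _ = _ at h2
  change finrank o.S.F o.Kc + finrank o.S.F o.W = _
  omega

variable (hne : o.W ≠ ⊥) (hW : o.W ≤ o.S.gen o.θ)

theorem WL_eq (hW : o.W ≤ o.S.gen o.θ) {ω : o.S.C} (hω : ω ∈ o.W) (h0 : ω ≠ 0) :
    o.WL = o.L0.map (LinearMap.mulLeft o.S.F ω) := by
  refine le_antisymm (span_le.2 ?_) ?_
  · rintro _ ⟨a, ha, x, hx, rfl⟩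
    refine ⟨ω⁻¹ * a * x, Subalgebra.mul_mem o.L0alg (o.inv_mul_mem_L0 hW hω h0 ha) hx, ?_⟩
    rw [LinearMap.mulLeft_apply, ← mul_assoc, ← mul_assoc, mul_inv_cancel₀ h0, one_mul]
  · rintro _ ⟨x, hx, rfl⟩
    exact subset_span ⟨ω, hω, x, hx, rfl⟩

include hW in
theorem WL_le_cent : o.WL ≤ o.S.cent o.θ := by
  refine span_le.2 ?_
  rintro _ ⟨a, ha, x, hx, rfl⟩
  exact Stg.gen_le_cent _ (Stg.gen_mul (hW ha) (o.L0_le_gen hW hx))

include hne hW in
theorem finrank_K1 :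
    finrank o.S.F ↥(o.S.cent o.θ ⊓ o.S.orth o.WL) + o.d0 = finrank o.S.F (o.S.cent o.θ) := by
  obtain ⟨ω, hω, h0⟩ := Submodule.exists_mem_ne_zero_of_ne_bot hne
  have hWL : finrank o.S.F o.WL = o.d0 := by
    rw [WL_eq hW hω h0, o.finrank_map_mulLeft h0]
    rfl
  rw [show o.S.cent o.θ ⊓ o.S.orth o.WL =
      o.S.orth (o.WL ⊔ LinearMap.range (o.S.ad o.θ)) by
    rw [Stg.orth_sup, Stg.orth_range_ad, inf_comm]]
  have h1 := finrank_sup_ad (WL_le_cent hW)
  have h2 := Stg.finrank_orth_add (S := o.S) (o.WL ⊔ LinearMap.range (o.S.ad o.θ))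
  omega

include hne hW in
theorem finrank_Kc_eq :
    finrank o.S.F ↥(o.S.cent o.θ ⊓ o.S.orth o.WL) + (o.d0 - o.r) = finrank o.S.F o.Kc := by
  have := finrank_K1 hne hW
  have := finrank_Kc o
  have := o.r_le_d0 hW
  omega

theorem K1_le_Kc (o : Obj) : o.S.cent o.θ ⊓ o.S.orth o.WL ≤ o.Kc := by
  rintro z ⟨hz, hz'⟩ t ht
  rw [T_eq] at ht
  obtain ⟨w, hw, _, ⟨y, rfl⟩, rfl⟩ := Submodule.mem_sup.1 ht
  have hWL : w ∈ o.WL :=
    subset_span ⟨w, hw, 1, one_mem (Algebra.adjoin o.S.F _), (mul_one w).symm⟩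
  rw [mul_add, map_add, hz' w hWL, Stg.τ_cent_mul_ad hz, add_zero]

/-- The data at a minimal state. -/
structure Base (o : Obj) (m : Model o) where
  v : o.S.C
  v_mem : m.ω * v ∈ o.W
  za : o.S.C
  za0 : o.S.τ (m.ω * m.w0 * za) = 1
  za1 : o.S.τ (m.ω * m.w1 * za) = 0
  zv : o.S.C
  zvv : o.S.τ (m.ω * v * zv) = 1
  zv0 : o.S.τ (m.ω * m.w0 * zv) = 0
  zv1 : o.S.τ (m.ω * m.w1 * zv) = 0
  lam : Fin (o.d0 - o.r) → o.S.C
  lam_mem : ∀ i, lam i ∈ o.Kc
  cc : Fin (o.d0 - o.r) → o.S.C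
  cc_cent : ∀ j, cc j ∈ o.S.cent o.θ
  cc0 : ∀ j, m.ω * m.w0 * cc j ∈ o.W
  cc1 : ∀ j, m.ω * m.w1 * cc j ∈ o.W
  dual : ∀ i j, o.S.τ (lam i * (m.ω * v * cc j)) = if i = j then 1 else 0

/-- A spanning model with independent ratios. -/
theorem exists_model (hM : MinimalStmt) {root : Obj} (ho : Obj.Minimal root o) :
    ∃ m : Model o, m.Spans ∧ m.ω * m.w1 ∉ span o.S.F {m.ω * m.w0} := by
  obtain ⟨hW, m, hm⟩ := hM root o ho
  by_cases hd : m.ω * m.w1 ∈ span o.S.F {m.ω * m.w0}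
  swap
  · exact ⟨m, hm, hd⟩
  obtain ⟨k, hk⟩ := mem_span_singleton.1 hd
  have hk' : m.w1 = k • m.w0 := mul_left_cancel₀ m.ω_ne (by rw [← hk, mul_smul_comm])
  have h8 := ho.small
  have hr := o.r_le_d0 hW
  have hnot : ¬ o.W ≤ span o.S.F {m.ω * m.w0} := fun h => by
    have h1 := Submodule.finrank_mono h
    have h2 := finrank_span_singleton (K := o.S.F) (mul_ne_zero m.ω_ne m.w0_ne)
    change o.r ≤ _ at h1
    omega
  obtain ⟨u, hu, hu'⟩ := SetLike.not_le_iff_exists.1 hnot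
  have hu0 : u ≠ 0 := fun h => hu' (h ▸ Submodule.zero_mem _)
  have e : m.ω * (m.ω⁻¹ * u) = u := by rw [← mul_assoc, mul_inv_cancel₀ m.ω_ne, one_mul]
  refine ⟨⟨m.ω, m.w0, m.ω⁻¹ * u, m.ω_mem, m.ω_ne, m.w0_ne,
    mul_ne_zero (inv_ne_zero m.ω_ne) hu0, m.w0_mem, by rwa [e]⟩, fun x hx => ?_, ?_⟩
  · obtain ⟨a, b, ha, hb, rfl⟩ := hm x hx
    refine ⟨a + k • b, 0, ?_, by rw [mul_zero]; exact Submodule.zero_mem _, ?_⟩
    · rw [mul_add, mul_smul_comm]
      exact Submodule.add_mem _ ha (Submodule.smul_mem _ _ hb)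
    · simp [hk', mul_add]
  · simpa [e] using hu'

/-- A generic element: the ratio space and its multiple of a large subspace fill the ratio algebra. -/
theorem exists_generic {root : Obj} (ho : Obj.Minimal root o) (hW : o.W ≤ o.S.gen o.θ) (m : Model o) :
    ∃ v, m.ω * v ∈ o.W ∧ m.ω * v ∉ span o.S.F {m.ω * m.w0, m.ω * m.w1} ∧
      ∀ y ∈ o.L0, ∃ a, m.ω * a ∈ o.W ∧ ∃ c, c ∈ o.L0 ∧ m.ω * m.w0 * c ∈ o.W ∧
        m.ω * m.w1 * c ∈ o.W ∧ y = a + v * c := by
  classical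
  have hne := ho.state.2
  have h8 := ho.small
  have hr := o.r_le_d0 hW
  let _ : Field o.L0alg := Stg.fieldOfComm o.L0alg (Obj.L0alg_comm hW)
  have hWr := Obj.finrank_Wrat hW m.ω_mem m.ω_ne
  have hd : finrank o.S.F o.L0alg = o.d0 := rfl
  have hL : ∀ {u : o.S.C}, m.ω * u ∈ o.W → u ∈ o.L0alg := fun {u} hu => by
    have := o.inv_mul_mem_L0 hW m.ω_mem m.ω_ne hu
    rwa [← mul_assoc, inv_mul_cancel₀ m.ω_ne, one_mul] at this
  let W' := o.Wrat m.ω
  let u0 : o.L0alg := ⟨m.w0, hL m.w0_mem⟩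
  let u1 : o.L0alg := ⟨m.w1, hL m.w1_mem⟩
  have hu0 : u0 ≠ 0 := fun h => m.w0_ne (congrArg Subtype.val h)
  have hu1 : u1 ≠ 0 := fun h => m.w1_ne (congrArg Subtype.val h)
  have hcomap : ∀ u : o.L0alg, u ≠ 0 →
      finrank o.S.F (W'.comap (LinearMap.mulLeft o.S.F u)) = o.r := by
    intro u hu
    have hinj : Function.Injective (LinearMap.mulLeft o.S.F u) := mul_right_injective₀ hu
    rw [(Submodule.equivMapOfInjective _ hinj _).finrank_eq, Submodule.map_comap_eq_of_le, hWr]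
    rw [LinearMap.range_eq_top.2 (LinearMap.surjective_of_injective hinj)]
    exact le_top
  let I := W'.comap (LinearMap.mulLeft o.S.F u0) ⊓ W'.comap (LinearMap.mulLeft o.S.F u1)
  have hI : o.d0 ≤ finrank o.S.F I + 2 * (o.d0 - o.r) := by
    have h1 := Submodule.finrank_sup_add_finrank_inf_eq
      (W'.comap (LinearMap.mulLeft o.S.F u0)) (W'.comap (LinearMap.mulLeft o.S.F u1))
    rw [hcomap u0 hu0, hcomap u1 hu1] at h1
    have h2 := Submodule.finrank_le
      (W'.comap (LinearMap.mulLeft o.S.F u0) ⊔ W'.comap (LinearMap.mulLeft o.S.F u1))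
    rw [hd] at h2
    show o.d0 ≤ finrank o.S.F ↥((W'.comap (LinearMap.mulLeft o.S.F u0)) ⊓
      (W'.comap (LinearMap.mulLeft o.S.F u1))) + 2 * (o.d0 - o.r)
    omega
  set B := Algebra.traceForm o.S.F o.L0alg
  have hB : B.Nondegenerate := traceForm_nondegenerate _ _
  set P := B.orthogonal W'
  set Q := B.orthogonal I
  have hP : finrank o.S.F P = o.d0 - o.r := by
    rw [LinearMap.BilinForm.finrank_orthogonal hB, hd, hWr]
  have hQ : finrank o.S.F Q ≤ 2 * (o.d0 - o.r) := by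
    rw [LinearMap.BilinForm.finrank_orthogonal hB, hd]
    omega
  have hU : ¬ W' ≤ span o.S.F {u0, u1} := fun h => by
    have h1 := Submodule.finrank_mono h
    have h2 : finrank o.S.F (span o.S.F ({u0, u1} : Set o.L0alg)) ≤ 2 := by
      refine (finrank_span_le_card _).trans ?_
      rw [Set.toFinset_insert, Set.toFinset_singleton]
      exact Finset.card_le_two
    rw [hWr] at h1
    omega
  obtain ⟨v, hv, hvU, hgood⟩ := Vale.P199K.Pair.exists_notMem_forall_eq_zero Q P W'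
    (span o.S.F {u0, u1})
    (by have hWr' : finrank o.S.F W' = o.r := hWr; omega) hU
  set V := W' ⊔ I.map (LinearMap.mulLeft o.S.F v) with hV
  have hVbot : B.orthogonal V = ⊥ := by
    rw [Submodule.eq_bot_iff]
    intro y hy
    have h1 : y ∈ P := fun w hw => hy w (Submodule.mem_sup_left hw)
    refine hgood y h1 fun w hw => ?_
    have h2 := hy (v * w) (Submodule.mem_sup_right ⟨w, hw, rfl⟩)
    simp only [B, Algebra.traceForm_apply] at h2 ⊢
    rw [← h2]
    congr 1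
    ring
  have hVtop : V = ⊤ := by
    have := LinearMap.BilinForm.finrank_orthogonal hB V
    rw [hVbot, finrank_bot] at this
    refine Submodule.eq_top_of_finrank_eq ?_
    have h2 := Submodule.finrank_le V
    omega
  refine ⟨(v : o.S.C), hv, fun h => ?_, fun y hy => ?_⟩
  swap
  · obtain ⟨a', ha', _, ⟨c, hc, rfl⟩, hac⟩ :=
      Submodule.mem_sup.1 (show (⟨y, hy⟩ : o.L0alg) ∈ V from hVtop ▸ Submodule.mem_top)
    refine ⟨(a' : o.S.C), ha', (c : o.S.C), c.2, ?_, ?_, (congrArg Subtype.val hac).symm⟩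
    · rw [mul_assoc]; exact hc.1
    · rw [mul_assoc]; exact hc.2
  · obtain ⟨a, b, hab⟩ := mem_span_pair.1 h
    refine hvU (mem_span_pair.2 ⟨a, b, Subtype.ext (mul_left_cancel₀ m.ω_ne ?_)⟩)
    simp [u0, u1, mul_add, hab]

/-- The base data exists. -/
theorem exists_base {root : Obj} (ho : Obj.Minimal root o) (hW : o.W ≤ o.S.gen o.θ) (m : Model o)
    (hind : m.ω * m.w1 ∉ span o.S.F {m.ω * m.w0}) : Nonempty (Base o m) := by
  classical
  have hne := ho.state.2
  obtain ⟨v, hv, hvout, hfill⟩ := exists_generic ho hW m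
  let I : Submodule o.S.F o.S.C := o.L0 ⊓ o.W.comap (LinearMap.mulLeft o.S.F (m.ω * m.w0)) ⊓
    o.W.comap (LinearMap.mulLeft o.S.F (m.ω * m.w1))
  have h01 : m.ω * m.w0 ∉ span o.S.F {m.ω * m.w1} := fun h => by
    obtain ⟨k, hk⟩ := mem_span_singleton.1 h
    refine hind (mem_span_singleton.2 ⟨k⁻¹, ?_⟩)
    have hk0 : k ≠ 0 := fun h0 => mul_ne_zero m.ω_ne m.w0_ne (by rw [← hk, h0, zero_smul])
    rw [← hk, smul_smul, inv_mul_cancel₀ hk0, one_smul]
  obtain ⟨za, za0, za1⟩ := exists_test h01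
  obtain ⟨zv, zvv, zvU⟩ := exists_test hvout
  -- representatives of the cokernel
  let K1 := (o.S.cent o.θ ⊓ o.S.orth o.WL).comap o.Kc.subtype
  obtain ⟨D, hD⟩ := Submodule.exists_isCompl K1
  have hDdim : finrank o.S.F D = o.d0 - o.r := by
    have h1 := Submodule.finrank_add_eq_of_isCompl hD
    have h2 : finrank o.S.F K1 = finrank o.S.F ↥(o.S.cent o.θ ⊓ o.S.orth o.WL) :=
      (Submodule.comapSubtypeEquivOfLe (K1_le_Kc o)).finrank_eq
    have := finrank_Kc_eq hne hW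
    omega
  have : Module.Free o.S.F D := Module.Free.of_divisionRing o.S.F D
  let bD := Module.finBasisOfFinrankEq o.S.F D hDdim
  let lam : Fin (o.d0 - o.r) → o.S.C := fun i => ((bD i : o.Kc) : o.S.C)
  have hlam : ∀ i, lam i ∈ o.Kc := fun i => (bD i : o.Kc).2
  obtain ⟨ψ, hψdef⟩ : ∃ ψ : Fin (o.d0 - o.r) → I →ₗ[o.S.F] o.S.F,
      ∀ i (c : I), ψ i c = o.S.τ (lam i * (m.ω * v * (c : o.S.C))) :=
    ⟨fun i => o.S.τ.comp ((LinearMap.mulLeft o.S.F (lam i * (m.ω * v))).comp I.subtype),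
      fun i c => by simp [mul_assoc]⟩
  have hψ : ∀ γ : Fin (o.d0 - o.r) → o.S.F, (∀ x, ∑ i, γ i * ψ i x = 0) → γ = 0 := by
    intro γ hγ
    set d := ∑ i, γ i • bD i with hdd
    have hval : ((d : o.Kc) : o.S.C) = ∑ i, γ i • lam i := by
      rw [hdd, Submodule.coe_sum, Submodule.coe_sum]
      rfl
    have hK : (d : o.Kc) ∈ K1 := by
      refine ⟨?_, Stg.mem_orth_span.2 ?_⟩
      · have : o.Kc ≤ o.S.cent o.θ := by
          rw [← Stg.orth_range_ad]
          exact Stg.orth_anti le_sup_right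
        exact this (d : o.Kc).2
      rintro _ ⟨a, ha, x, hx, rfl⟩
      obtain ⟨a', ha', c, hc, hc0, hc1, hy⟩ := hfill (m.ω⁻¹ * a * x)
        (Subalgebra.mul_mem o.L0alg (o.inv_mul_mem_L0 hW m.ω_mem m.ω_ne ha) hx)
      have hax : a * x = m.ω * a' + m.ω * v * c := by
        rw [mul_assoc m.ω v c, ← mul_add, ← hy, ← mul_assoc, ← mul_assoc,
          mul_inv_cancel₀ m.ω_ne, one_mul]
      show o.S.τ (((d : o.Kc) : o.S.C) * (a * x)) = 0
      rw [hax, mul_add, map_add, (d : o.Kc).2 _ (Submodule.mem_inf.1 ha').1, zero_add, hval,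
        Finset.sum_mul, map_sum, ← hγ ⟨c, ⟨hc, hc0⟩, hc1⟩]
      refine Finset.sum_congr rfl fun i _ => ?_
      simp [hψdef, mul_assoc]
    have hd0 : d = 0 := Subtype.ext ((Submodule.disjoint_def.1 hD.disjoint) _ hK d.2)
    have hli := bD.linearIndependent
    rw [Fintype.linearIndependent_iffₛ] at hli
    have hz := hli γ 0 (by rw [← hdd, hd0]; simp)
    funext i
    exact hz i
  choose cc hcc using fun j => exists_values ψ hψ (fun i => if i = j then 1 else 0)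
  have h1 : o.S.τ (m.ω * m.w1 * za) = 0 := za1 _ (mem_span_singleton_self _)
  have h2 : o.S.τ (m.ω * m.w0 * zv) = 0 := zvU _ (subset_span (Set.mem_insert _ _))
  have h3 : o.S.τ (m.ω * m.w1 * zv) = 0 :=
    zvU _ (subset_span (Set.mem_insert_of_mem _ (Set.mem_singleton _)))
  have h4 : ∀ j, ((cc j : I) : o.S.C) ∈ o.L0 := fun j => (cc j).2.1.1
  have h5 : ∀ i j, o.S.τ (lam i * (m.ω * v * ((cc j : I) : o.S.C))) = if i = j then 1 else 0 := by
    intro i j
    rw [← hcc j i, hψdef]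
  exact ⟨{ v := v, v_mem := hv, za := za, za0 := za0, za1 := h1, zv := zv, zvv := zvv, zv0 := h2,
           zv1 := h3, lam := lam, lam_mem := hlam, cc := fun j => ((cc j : I) : o.S.C),
           cc_cent := fun j => Stg.gen_le_cent _ (o.L0_le_gen hW (h4 j)),
           cc0 := fun j => (cc j).2.1.2, cc1 := fun j => (cc j).2.2, dual := h5 }⟩

end Fin2

end P199K
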