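import Vale.Agent.P199.Kurosh.Final.Solve

/-! The pairing at the child. -/

open Module Submodule Finset

namespace P199K

namespace Stg

variable {S : Stg}

/-- Moving a conjugator across the base value inside the trace. -/
theorem τ_cross {θ μ Hs H ls l : S.C} (hμ : θ * μ = μ * θ) (hs : ls + (θ * Hs - Hs * θ) = 0)
    (hl : l + (θ * H - H * θ) = 0) : S.τ (μ * (ls * H)) = - S.τ (μ * Hs * l) := by
  rw [eq_neg_of_add_eq_zero_left hs, eq_neg_of_add_eq_zero_left hl]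
  have e : S.τ (μ * (θ * Hs * H)) = S.τ (μ * (Hs * (H * θ))) := by
    rw [← mul_assoc, ← mul_assoc, ← hμ, mul_assoc, mul_assoc, S.τ_mul_comm θ]
    simp only [mul_assoc]
  simp only [neg_sub, sub_mul, mul_sub, map_sub, mul_assoc] at e ⊢
  rw [e]

end Stg

namespace Fin2

namespace Setup

variable {D : Setup} (Δ : D.Data)

/-- The letters' coefficients of a side, on the Laurent stage. -/
noncomputable abbrev Side.cP {s : Fin 2} (S : D.Side s) : Fin D.G.K → D.E.T.laurent.F := S.c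

theorem Kc_τ {z : D.E.T.laurent.C} (hz : z ∈ D.ch.Kc) (c : Fin D.G.K → D.E.T.laurent.F) :
    D.E.T.laurent.τ (z * D.ch.Df c) = 0 :=
  hz _ (Submodule.mem_sup_left ⟨c, rfl⟩)

/-- Combinations killed by the complement functionals are commutators. -/
theorem exists_bracket (c : Fin D.G.K → LaurentSeries D.E.T.F) (h : ∀ j, psi Δ j c = 0) :
    ∃ H : LaurentSeries D.E.T.C, D.θp * H - H * D.θp = - D.G.linPart c := by
  have hker : D.centp ≤ LinearMap.ker
      (D.E.T.laurent.τ.comp (LinearMap.mulRight D.E.T.laurent.F (D.ch.Df c))) := by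
    refine Δ.span_le.trans (sup_le (fun z hz => Kc_τ hz c) (span_le.2 ?_))
    rintro _ ⟨j, rfl⟩
    exact h j
  have hmem : D.ch.Df c ∈ LinearMap.range (D.E.T.laurent.ad (D.up D.θp)) := by
    rw [← Stg.orth_cent, Stg.mem_orth']
    exact fun v hv => LinearMap.mem_ker.1 (hker hv)
  obtain ⟨y, hy⟩ := hmem
  refine ⟨- D.down y, ?_⟩
  have h2 : D.θp * D.down y - D.down y * D.θp = D.down (D.ch.Df c) := hy
  rw [Df_eq] at h2
  rw [← h2, mul_neg, neg_mul]
  abel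

theorem topMap_of {c : Fin D.G.K → LaurentSeries D.E.T.F} {H : LaurentSeries D.E.T.C}
    (h : D.G.linPart c + (D.θp * H - H * D.θp) = 0) :
    D.ch.topMap (c, D.up H) = 0 := by
  rw [Obj.topMap, D.ch.lin1_eq_Df, D.ch_θ]
  show D.down (D.ch.Df c) + (D.θp * H - H * D.θp) = 0
  rw [Df_eq]
  exact h

theorem exists_kernel (c : Fin D.G.K → LaurentSeries D.E.T.F) (h : ∀ j, psi Δ j c = 0) :
    ∃ H : LaurentSeries D.E.T.C, D.G.linPart c + (D.θp * H - H * D.θp) = 0 := by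
  obtain ⟨H, hH⟩ := exists_bracket Δ c h
  exact ⟨H, by rw [hH, add_neg_cancel]⟩

theorem phi_cross {s : Fin 2} (S : D.Side s) (i : Fin D.cor)
    {c : Fin D.G.K → LaurentSeries D.E.T.F} {H : LaurentSeries D.E.T.C}
    (h : D.G.linPart c + (D.θp * H - H * D.θp) = 0) :
    D.ch.S.τ (D.up (Δ.mu i) * D.ch.cross (S.c, D.up S.H) (c, D.up H)) = phi Δ S i c := by
  have hμ : D.ch.θ * D.up (Δ.mu i) = D.up (Δ.mu i) * D.ch.θ := by
    rw [D.ch_θ]
    exact D.mem_centp.1 (D.Kc_le_centp (Δ.mu_mem i))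
  have h1 := topMap_of (D := D) S.eq
  have h2 := topMap_of (D := D) h
  rw [Obj.topMap] at h1 h2
  have h3 := Stg.τ_cross (S := D.ch.S) hμ h1 h2
  rw [D.ch.lin1_eq_Df c] at h3
  rw [Obj.cross, mul_add, map_add, h3, ← sub_eq_add_neg]
  show _ = D.E.T.laurent.τ (D.up (Δ.mu i) * quadL S.c c) -
    D.E.T.laurent.τ (D.up (Δ.mu i * S.H) * D.ch.Df c)
  exact congrArg₂ (· - ·) (congrArg (fun x => D.E.T.laurent.τ (D.up (Δ.mu i) * x))
    (quadL_apply S.c c).symm) rfl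

theorem psi_dir (j : Fin Δ.nz) (s : Fin 2) :
    D.E.T.τ (Δ.zz j * (D.E.emb.iC (D.m.ω * D.B.v) * mon D.E s)) = 0 := by
  obtain ⟨g, hg⟩ := exists_g D.m D.E D.hW D.B.v_mem (by linarith [D.hM]) s
  rw [← hg]
  exact τ_centZ_gauge (Δ.zz_mem j) g

/-- A side from a starting lift and a correction of positive order. -/
theorem exists_side {s : Fin 2} {cb δ : Fin D.G.K → LaurentSeries D.E.T.F}
    (hcb : D.LeadIs cb (D.E.emb.iC (D.m.ω * D.B.v) * mon D.E s)) (hδ : ∀ a, OrdGE 1 (δ a))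
    (h : ∀ j, psi Δ j (cb + δ) = 0) : ∃ S : D.Side s, S.c = cb + δ := by
  have hl := hcb.add hδ
  obtain ⟨H, hH, he⟩ := D.exists_conj hl.1 (exists_bracket Δ _ h)
  exact ⟨⟨cb + δ, H, hH, he, hl⟩, rfl⟩

theorem exists_side0 (Δ : D.Data) : Nonempty (D.Side 0) := by
  obtain ⟨cb, hcb⟩ := exists_leadIs_dir (D := D) D.B.v_mem (mon_mem D.E 0)
  obtain ⟨δ, -, hu, ho⟩ := solve Δ (σ := Fin 0) Fin.elim0 (fun s => s.elim0) (fun s => s.elim0)
    (fun s => s.elim0) (fun j => - D.downF (psi Δ j cb))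
  have hδ := ho (fun s => s.elim0) fun j => by
    obtain ⟨h1, h2⟩ := psi_lead Δ j hcb
    exact OrdGE.neg (ordGE_succ h1 (h2.trans (psi_dir Δ j 0)))
  obtain ⟨S, -⟩ := exists_side Δ hcb hδ fun j => by
    exact ((map_add (psi Δ j) cb δ).trans (congrArg _ (hu j))).trans (add_neg_cancel _)
  exact ⟨S⟩

theorem exists_side1 (S0 : D.Side 0) : ∃ S : D.Side 1, ∀ i, phi Δ S0 i S.c = 0 := by
  obtain ⟨cb, hcb⟩ := exists_leadIs_dir (D := D) D.B.v_mem (mon_mem D.E 1)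
  obtain ⟨δ, ht, hu, ho⟩ := solve Δ (σ := Fin 1) (fun _ => 0) (fun a b _ => Subsingleton.elim a b)
    (fun _ => S0) (fun _ i => - D.downF (phi Δ S0 i cb)) (fun j => - D.downF (psi Δ j cb))
  have hδ := ho (fun _ i => by
      obtain ⟨h1, h2⟩ := phi_lead Δ S0 i hcb
      obtain ⟨e, he, hh⟩ := S0.exists_e
      rw [τ_pair01 D.m D.E D.hW D.B.v_mem (D.B.lam_mem i) D.hM he hh, neg_zero] at h2
      exact OrdGE.neg (ordGE_succ h1 h2))
    fun j => by
      obtain ⟨h1, h2⟩ := psi_lead Δ j hcb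
      exact OrdGE.neg (ordGE_succ h1 (h2.trans (psi_dir Δ j 1)))
  obtain ⟨S, hS⟩ := exists_side Δ hcb hδ fun j => by
    exact ((map_add (psi Δ j) cb δ).trans (congrArg _ (hu j))).trans (add_neg_cancel _)
  refine ⟨S, fun i => ?_⟩
  rw [hS]
  exact ((map_add (phi Δ S0 i) cb δ).trans (congrArg _ (ht 0 i))).trans (add_neg_cancel _)

/-- The lifts are independent modulo the part where vanishing holds. -/
theorem mu_indep (hV : VanishStmt) (S0 : D.Side 0) (γ : Fin D.cor → D.E.T.laurent.F)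
    (h : ∑ i, γ i • D.up (Δ.mu i) ∈ D.ch.S.cent D.ch.θ ⊓ D.ch.S.orth D.ch.WL) : γ = 0 := by
  classical
  funext l
  obtain ⟨c, ht, hu, -⟩ := solve Δ (σ := Fin 1) (fun _ => 0) (fun a b _ => Subsingleton.elim a b)
    (fun _ => S0) (fun _ i => if i = l then 1 else 0) (fun _ => 0)
  obtain ⟨H, hH⟩ := exists_kernel Δ c hu
  have h2 := (D.ch.cross_vanish hV D.ch_min (topMap_of (D := D) S0.eq) (topMap_of hH)).2 _ h
  rw [Finset.sum_mul, map_sum, Finset.sum_eq_single l] at h2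
  · rw [smul_mul_assoc, map_smul, phi_cross Δ S0 l hH, ht 0 l, if_pos rfl] at h2
    exact (mul_one (γ l)).symm.trans h2
  · intro i _ hi
    rw [smul_mul_assoc, map_smul, phi_cross Δ S0 i hH, ht 0 i, if_neg hi]
    exact mul_zero (γ i)
  · simp

theorem Kc_le (hV : VanishStmt) (S0 : D.Side 0) :
    D.ch.Kc ≤ (D.ch.S.cent D.ch.θ ⊓ D.ch.S.orth D.ch.WL) ⊔
      span D.E.T.laurent.F (Set.range fun i => D.up (Δ.mu i)) := by
  have hK1 := K1_le_Kc D.ch
  have hμ : span D.E.T.laurent.F (Set.range fun i => D.up (Δ.mu i)) ≤ D.ch.Kc :=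
    span_le.2 (Set.range_subset_iff.2 Δ.mu_mem)
  have hli : LinearIndependent D.E.T.laurent.F fun i => D.up (Δ.mu i) :=
    Fintype.linearIndependent_iff.2 fun γ hγ i =>
      congrFun (mu_indep Δ hV S0 γ (by rw [hγ]; exact Submodule.zero_mem _)) i
  have hinf : (D.ch.S.cent D.ch.θ ⊓ D.ch.S.orth D.ch.WL) ⊓
      span D.E.T.laurent.F (Set.range fun i => D.up (Δ.mu i)) = ⊥ := by
    rw [Submodule.eq_bot_iff]
    rintro x ⟨hx, hx'⟩
    obtain ⟨γ, rfl⟩ := Submodule.mem_span_range_iff_exists_fun _ |>.1 hx'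
    rw [mu_indep Δ hV S0 γ hx]
    simp
  refine (Submodule.eq_of_le_of_finrank_le (sup_le hK1 hμ) ?_).ge
  have h1 := finrank_Kc_eq D.ch_min.state.2 D.ch_W
  have h2 := Submodule.finrank_sup_add_finrank_inf_eq (D.ch.S.cent D.ch.θ ⊓ D.ch.S.orth D.ch.WL)
    (span D.E.T.laurent.F (Set.range fun i => D.up (Δ.mu i)))
  rw [hinf, finrank_bot, finrank_span_eq_card hli, Fintype.card_fin] at h2
  have h3 := D.ch_cor
  omega

theorem sides_indep (S : ∀ s, D.Side s) :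
    LinearIndependent D.E.T.laurent.F fun s => (S s).cP := by
  refine LinearIndependent.of_comp D.ch.Df ?_
  choose hint e he hx using fun s => (S s).lead
  let A : Fin 2 → D.E.T.C := fun s => (D.G.linPart (S s).c).coeff 0
  have hA : LinearIndependent D.E.T.F A := by
    refine Fintype.linearIndependent_iff.2 fun γ hγ => ?_
    have hcent : ∀ s, D.E.emb.iC (D.m.ω * D.B.v) * mon D.E s -
        (e s * D.m.Z D.E - D.m.Z D.E * e s) ∈ D.E.T.cent D.θ0 := fun s =>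
      sub_mem (Stg.mul_mem_cent (iC_mem_cent D.E (W_le_cent D.o D.B.v_mem))
        (E_le_cent D.E (mon_mem D.E s)))
        (sub_mem (Stg.mul_mem_cent (E_le_cent D.E (he s)) D.Z_cent)
          (Stg.mul_mem_cent D.Z_cent (E_le_cent D.E (he s))))
    have hr : ∑ s, γ s • (D.E.emb.iC (D.m.ω * D.B.v) * mon D.E s -
        (e s * D.m.Z D.E - D.m.Z D.E * e s)) - 0 ∈ LinearMap.range (D.E.T.ad D.θ0) := by
      rw [← hγ, ← Finset.sum_sub_distrib]
      refine Submodule.sum_mem _ fun s _ => ?_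
      rw [← smul_sub]
      refine Submodule.smul_mem _ _ ?_
      have := sub_mem (D.θ1_bracket (E_le_cent D.E (he s))) (hx s)
      convert this using 1
      simp only [A]
      abel
    exact congrFun (indep_lead D.m D.E D.hW D.B D.hM e he γ (eq_of_ad D.E
      (Submodule.sum_mem _ fun s _ => Submodule.smul_mem _ _ (hcent s)) (Submodule.zero_mem _) hr))
  rw [linearIndependent_iff_card_le_finrank_span]
  let U : Submodule D.E.T.laurent.F D.E.T.laurent.C :=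
    span D.E.T.laurent.F (Set.range (D.ch.Df ∘ fun s => (S s).cP))
  show _ ≤ finrank D.E.T.laurent.F U
  rw [← Stg.finrank_leadSp_laurent, ← finrank_span_eq_card hA]
  refine Submodule.finrank_mono (span_le.2 ?_)
  rintro _ ⟨s, rfl⟩
  have hU : D.ch.Df (S s).cP ∈ U := subset_span ⟨s, rfl⟩
  exact ⟨D.down (D.ch.Df (S s).cP), hU, by
    rw [Df_eq]; exact D.G.linPart_ordGE (hint s), by rw [Df_eq]⟩

theorem eq_zero_on_Kc (hV : VanishStmt) (S0 : D.Side 0) (φ : D.ch.S.C →ₗ[D.ch.S.F] D.ch.S.F)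
    (h1 : ∀ z ∈ D.ch.S.cent D.ch.θ ⊓ D.ch.S.orth D.ch.WL, φ z = 0)
    (h2 : ∀ i, φ (D.up (Δ.mu i)) = 0) : ∀ z ∈ D.ch.Kc, φ z = 0 := fun z hz => by
  have : D.ch.Kc ≤ LinearMap.ker φ := (Kc_le Δ hV S0).trans
    (sup_le (fun z hz => h1 z hz) (span_le.2 (Set.range_subset_iff.2 h2)))
  exact this hz

theorem orth01_aux (hV : VanishStmt) (S0 : D.Side 0) (S1 : D.Side 1)
    (h : ∀ i, phi Δ S0 i S1.c = 0) :
    ∀ z ∈ D.ch.Kc, D.ch.S.τ (z * D.ch.cross (S0.cP, D.up S0.H) (S1.cP, D.up S1.H)) = 0 := by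
  intro z hz
  refine eq_zero_on_Kc Δ hV S0 (D.ch.S.τ.comp (LinearMap.mulRight D.ch.S.F
    (D.ch.cross (S0.cP, D.up S0.H) (S1.cP, D.up S1.H)))) (fun z hz => ?_) (fun i => ?_) z hz
  · exact (D.ch.cross_vanish hV D.ch_min (topMap_of S0.eq) (topMap_of S1.eq)).2 z hz
  · exact (phi_cross Δ S0 i S1.eq).trans (h i)

theorem onto_aux (Δ : D.Data) (hV : VanishStmt) (S : ∀ s, D.Side s) (g : Fin 2 → D.ch.S.C →ₗ[D.ch.S.F] D.ch.S.F)
    (hg : ∀ s, ∀ z ∈ D.ch.S.cent D.ch.θ ⊓ D.ch.S.orth D.ch.WL, g s z = 0) :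
    ∃ b, D.ch.topMap b = 0 ∧
      ∀ s, ∀ z ∈ D.ch.Kc, D.ch.S.τ (z * D.ch.cross ((S s).cP, D.up (S s).H) b) = g s z := by
  obtain ⟨c, ht, hu, -⟩ := solve Δ (σ := Fin 2) id Function.injective_id S
    (fun s i => D.downF (g s (D.up (Δ.mu i)))) (fun _ => 0)
  obtain ⟨H, hH⟩ := exists_kernel Δ c hu
  let cP : Fin D.ch.K → D.ch.S.F := c
  refine ⟨(cP, D.up H), topMap_of hH, fun s z hz => sub_eq_zero.1 ?_⟩
  refine eq_zero_on_Kc Δ hV (S 0)
    (D.ch.S.τ.comp (LinearMap.mulRight D.ch.S.F (D.ch.cross ((S s).cP, D.up (S s).H) (cP, D.up H)))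
      - g s) (fun z hz => ?_) (fun i => ?_) z hz
  · refine sub_eq_zero.2 (Eq.trans ?_ (hg s z hz).symm)
    exact (D.ch.cross_vanish hV D.ch_min (topMap_of (S s).eq) (topMap_of hH)).2 z hz
  · exact sub_eq_zero.2 ((phi_cross Δ (S s) i hH).trans (ht s i))

/-- The child has a pairing. -/
theorem exists_pairing (hV : VanishStmt) : Nonempty D.ch.Pairing := by
  obtain ⟨Δ⟩ := D.exists_data
  obtain ⟨S0⟩ := exists_side0 Δ
  obtain ⟨S1, hS1⟩ := exists_side1 Δ S0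
  let S : ∀ s, D.Side s := Fin.cons S0 (Fin.cons S1 finZeroElim)
  exact ⟨{
    a := fun s => ((S s).cP, D.up (S s).H)
    ker := fun s => topMap_of (S s).eq
    indep := sides_indep S
    orth01 := orth01_aux Δ hV S0 S1 hS1
    onto := onto_aux Δ hV S }⟩

end Setup

end Fin2

end P199K
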