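import Vale.Agent.P199.Kurosh.Lead

/-! Orders and leading coefficients on the Laurent stage, and a solver for integral linear systems whose
leading matrix is the identity. -/

open Finset Module

namespace P199K

namespace Fin2

variable {R : Type} [Ring R]

/-- Raising a bound one step at a time. -/
theorem climb {α : Type*} (Q : ℤ → α → Prop) {B : ℤ} {n : ℤ} {x : α} (hx : Q n x)
    (hstep : ∀ k, k < B → ∀ y, Q k y → ∃ y', Q (k + 1) y') : ∀ k, n ≤ k → k ≤ B → ∃ y, Q k y := by
  intro k hk
  induction k, hk using Int.le_induction with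
  | base => exact fun _ => ⟨x, hx⟩
  | succ m hm ih =>
    intro hmB
    obtain ⟨y, hy⟩ := ih (by omega)
    exact hstep m (by omega) y hy

theorem ordGE_succ {n : ℤ} {x : LaurentSeries R} (hx : OrdGE n x) (h0 : x.coeff n = 0) :
    OrdGE (n + 1) x := fun k hk => by
  rcases (Int.lt_add_one_iff.1 hk).lt_or_eq with h | h
  · exact hx k h
  · rw [h]; exact h0

theorem coeff_mul_zero {x y : LaurentSeries R} (hx : OrdGE 0 x) (hy : OrdGE 0 y) :
    (x * y).coeff 0 = x.coeff 0 * y.coeff 0 := hx.coeff_mul hy

/-- The second coefficient of a product. -/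
theorem coeff_mul_next {a b : ℤ} {x y : LaurentSeries R} (hx : OrdGE a x) (hy : OrdGE b y) :
    (x * y).coeff (a + b + 1) =
      x.coeff a * y.coeff (b + 1) + x.coeff (a + 1) * y.coeff b := by
  set x' := x - HahnSeries.single a (x.coeff a) with hx'def
  have hx' : OrdGE (a + 1) x' := by
    refine ordGE_succ (hx.sub (ordGE_single _ _)) ?_
    rw [hx'def, HahnSeries.coeff_sub, HahnSeries.coeff_single_same, sub_self]
  have e : x * y = HahnSeries.single a (x.coeff a) * y + x' * y := by
    rw [hx'def, ← add_mul, add_sub_cancel]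
  rw [e, HahnSeries.coeff_add, show a + b + 1 = (b + 1) + a by ring,
    HahnSeries.coeff_single_mul_add]
  congr 1
  rw [show b + 1 + a = (a + 1) + b by ring, hx'.coeff_mul hy, hx'def, HahnSeries.coeff_sub,
    HahnSeries.coeff_single_of_ne (by omega), sub_zero]

theorem ordGE_bracket {n : ℤ} {x y : LaurentSeries R} (hx : OrdGE n x) (hy : OrdGE 0 y) :
    OrdGE n (x * y - y * x) :=
  OrdGE.sub ((hx.mul hy).mono (by omega)) ((hy.mul hx).mono (by omega))

theorem coeff_bracket {n : ℤ} {x y : LaurentSeries R} (hx : OrdGE n x) (hy : OrdGE 0 y) :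
    (x * y - y * x).coeff n = x.coeff n * y.coeff 0 - y.coeff 0 * x.coeff n := by
  have h1 := hx.coeff_mul hy
  have h2 := hy.coeff_mul hx
  rw [add_zero] at h1
  rw [zero_add] at h2
  rw [HahnSeries.coeff_sub, h1, h2]

theorem coeff_bracket_next {n : ℤ} {x y : LaurentSeries R} (hx : OrdGE n x) (hy : OrdGE 0 y) :
    (x * y - y * x).coeff (n + 1) =
      (x.coeff (n + 1) * y.coeff 0 - y.coeff 0 * x.coeff (n + 1)) +
        (x.coeff n * y.coeff 1 - y.coeff 1 * x.coeff n) := by
  have h1 := coeff_mul_next hx hy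
  have h2 := coeff_mul_next hy hx
  rw [add_zero, zero_add] at h1
  rw [zero_add, zero_add] at h2
  rw [HahnSeries.coeff_sub, h1, h2]
  abel

end Fin2

namespace Stg

variable {S : Stg}

/-- Scalars of nonnegative order keep a bound. -/
theorem ordGE_smul {a : LaurentSeries S.F} {x : LaurentSeries S.C} {m n : ℤ}
    (ha : OrdGE m a) (hx : OrdGE n x) : OrdGE (m + n) (a • x) := (S.smul_ordGE ha hx).1

theorem τ_ordGE {n : ℤ} {x : LaurentSeries S.C} (hx : OrdGE n x) :
    OrdGE n (S.laurent.τ (x : S.laurent.C) : LaurentSeries S.F) := fun k hk => by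
  rw [S.laurent_τ_coeff, hx k hk, map_zero]

/-- A linear system over Laurent series with integral entries and the identity as leading matrix. -/
theorem solve_of_lead {ι : Type} [Fintype ι] [DecidableEq ι] {F : Type} [Field F]
    (G : ι → ι → LaurentSeries F) (hG : ∀ k j, OrdGE 0 (G k j))
    (hlead : ∀ k j, (G k j).coeff 0 = if k = j then 1 else 0) (t : ι → LaurentSeries F) :
    ∃ x : ι → LaurentSeries F, (∀ k, ∑ j, G k j * x j = t k) ∧
      ∀ N, (∀ k, OrdGE N (t k)) → ∀ j, OrdGE N (x j) := by
  let L : (ι → LaurentSeries F) →ₗ[LaurentSeries F] (ι → LaurentSeries F) :=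
    { toFun := fun x k => ∑ j, G k j * x j
      map_add' := fun x y => by funext k; simp [mul_add, Finset.sum_add_distrib]
      map_smul' := fun r x => by
        funext k
        simp [Finset.mul_sum, mul_left_comm] }
  have raise : ∀ (x : ι → LaurentSeries F) (N n : ℤ), n < N → (∀ k, OrdGE N (L x k)) →
      (∀ j, OrdGE n (x j)) → ∀ j, OrdGE (n + 1) (x j) := by
    intro x N n hn hL hx j
    refine Fin2.ordGE_succ (hx j) ?_
    have h := hL j n hn
    rw [show L x j = ∑ i, G j i * x i from rfl, HahnSeries.coeff_sum,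
      Finset.sum_eq_single j] at h
    · have := (hG j j).coeff_mul (hx j)
      rw [zero_add] at this
      rwa [this, hlead, if_pos rfl, one_mul] at h
    · intro i _ hi
      have := (hG j i).coeff_mul (hx i)
      rw [zero_add] at this
      rw [this, hlead, if_neg hi.symm, zero_mul]
    · simp
  have bound : ∀ (x : ι → LaurentSeries F) (N : ℤ), (∀ k, OrdGE N (L x k)) →
      ∀ j, OrdGE N (x j) := by
    intro x N hL
    choose m hm using fun j => exists_ordGE (x j)
    obtain ⟨n, hn⟩ := (Set.finite_range m).bddBelow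
    by_cases hnN : N ≤ n
    · exact fun j => (hm j).mono (le_trans hnN (hn ⟨j, rfl⟩))
    obtain ⟨y, hy, rfl⟩ := Fin2.climb (fun k (y : ι → LaurentSeries F) =>
        (∀ j, OrdGE k (y j)) ∧ y = x) (B := N) (n := n) (x := x)
      ⟨fun j => (hm j).mono (hn ⟨j, rfl⟩), rfl⟩
      (fun k hk y hy => ⟨y, raise y N k hk (hy.2 ▸ hL) hy.1, hy.2⟩) N (by omega) le_rfl
    exact hy
  have hinj : Function.Injective L := by
    rw [← LinearMap.ker_eq_bot, Submodule.eq_bot_iff]
    intro x hx
    funext j
    exact eq_zero_of_forall_ordGE fun N => bound x N (fun k => by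
      rw [LinearMap.mem_ker.1 hx]; exact OrdGE.zero) j
  obtain ⟨x, hx⟩ := LinearMap.surjective_of_injective hinj t
  exact ⟨x, fun k => congrFun hx k, fun N hN => bound x N fun k => hx ▸ hN k⟩

end Stg

end P199K
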