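import Vale.Agent.P199.Kurosh.Eval
import Vale.Agent.P199.Kurosh.Lead
import Vale.Agent.P199.Kurosh.Final.LSeries

/-! Lifting constant directions to the letters of a growth. -/

open Finset Module

namespace P199K

namespace Point

variable {S : Stg} {M : ℕ} {E : Sym S M} {K : ℕ} (P : Point E K)

/-- The gauge identity for a conjugator of any order with integral bracket. -/
theorem D_gauge_int (e : LaurentSeries E.T.C) (hmem : ∀ n, e.coeff n ∈ E.E)
    (hint : ∀ i, OrdGE 0 (e * P.p i - P.p i * e)) (f : NS K S.C) :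
    P.D f (fun i => e * P.p i - P.p i * e) = e * P.eval f - P.eval f * e := by
  obtain ⟨n, hn⟩ := exists_ordGE e
  obtain ⟨k, hk0, hkn⟩ : ∃ k : ℤ, 0 ≤ k ∧ 0 ≤ n + k := ⟨|n|, abs_nonneg n, by
    have := neg_abs_le n; omega⟩
  set a : LaurentSeries E.T.C := HahnSeries.single k 1 with ha
  have hcoeff : ∀ (y : LaurentSeries E.T.C) (m : ℤ), (a * y).coeff m = y.coeff (m - k) := by
    intro y m
    conv_lhs => rw [show m = (m - k) + k by ring, ha, HahnSeries.coeff_single_mul_add, one_mul]
  have hcen : ∀ y, a * y = y * a := fun y => by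
    ext m
    rw [hcoeff, show m = (m - k) + k by ring, ha, HahnSeries.coeff_mul_single_add, mul_one,
      add_sub_cancel_right]
  have he0 : OrdGE 0 (a * e) := fun m hm => by rw [hcoeff]; exact hn _ (by omega)
  have ha0 : OrdGE 0 a := (ordGE_single k 1).mono hk0
  have h := P.D_gauge (a * e) he0 (fun m => by rw [hcoeff]; exact hmem _) f
  have e1 : (fun i => a * e * P.p i - P.p i * (a * e)) = fun i => a * (e * P.p i - P.p i * e) :=
    funext fun i => by rw [mul_sub, ← mul_assoc (P.p i), ← hcen, mul_assoc, mul_assoc]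
  rw [e1, P.D_smul hint a ha0 hcen, ← mul_assoc (P.eval f), ← hcen, mul_assoc, mul_assoc,
    ← mul_sub] at h
  have hinv : HahnSeries.single (-k) (1 : E.T.C) * a = 1 := by
    rw [ha, HahnSeries.single_mul_single, neg_add_cancel, one_mul]
    rfl
  have h2 := congrArg (fun y => HahnSeries.single (-k) (1 : E.T.C) * y) h
  simpa only [← mul_assoc, hinv, one_mul] using h2

/-- The constant term of a derivative. -/
theorem D_coeff_zero {x : Fin K → LaurentSeries E.T.C} (hx : ∀ i, OrdGE 0 (x i))
    (hxm : ∀ i, (x i).coeff 0 ∈ E.E) (f : NS K S.C) :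
    (P.D f x).coeff 0 = ∑ i, E.emb.iC (f [i]) * (x i).coeff 0 := by
  have h := P.D_sub_lin hx f 1 0 (by norm_num)
  rw [HahnSeries.coeff_sub, sub_eq_zero] at h
  rw [h]
  simp only [NS.lin, NS.trunc, mul_zero, add_zero, HahnSeries.coeff_sum]
  refine Finset.sum_congr rfl fun i _ => ?_
  rw [Sym.ι, RingHom.comp_apply, HahnSeries.C_apply, HahnSeries.coeff_mul_single_zero,
    NS.shift_apply]
  exact (Sym.E_comm (hxm i) _).symm

theorem eval_coeff_zero (f : NS K S.C) : (P.eval f).coeff 0 = E.emb.iC (f []) := by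
  have h := P.eval_sub_trunc f 0 0 (by norm_num)
  rw [HahnSeries.coeff_sub, sub_eq_zero] at h
  rw [h]
  simp [NS.trunc, Sym.ι]

end Point

namespace Growth

variable {o : Obj} {M : ℕ} {E : Sym o.S M} {P : Point E o.K} (G : Growth o E P)

/-- The linear coefficients of the child, as Laurent series. -/
noncomputable def fLin (a : Fin G.K) : LaurentSeries E.T.C := G.f [a]

/-- The linear part of the child applied to scalars, as a Laurent series. -/
noncomputable def linPart (c : Fin G.K → LaurentSeries E.T.F) : LaurentSeries E.T.C :=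
  ∑ a, laurentMap (algebraMap E.T.F E.T.C) (c a) * G.fLin a

theorem fLin_eq (a : Fin G.K) : G.fLin a = P.D o.f (G.q a) := by
  ext n
  show (G.f [a] : LaurentSeries E.T.C).coeff n = _
  rw [G.lin a n, P.deriv_eq (G.q_int a) (G.q_mem a)]

theorem linPart_ordGE {n : ℤ} {c : Fin G.K → LaurentSeries E.T.F} (hc : ∀ a, OrdGE n (c a)) :
    OrdGE n (G.linPart c) := by
  refine OrdGE.sum _ _ fun a _ => ?_
  have h1 : OrdGE n (laurentMap (algebraMap E.T.F E.T.C) (c a)) := fun k hk => by
    rw [laurentMap_coeff, hc a k hk, map_zero]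
  have h2 := h1.mul (G.fLin_eq a ▸ P.D_ordGE o.f : OrdGE 0 (G.fLin a))
  rwa [add_zero] at h2

/-- A constant direction is a linear combination of the letters up to a gauge of order at least minus
one, provided only scalars of the monomial span commute with the second coefficient. -/
theorem exists_lift
    (hscal : ∀ x ∈ E.E, x * (P.eval o.f).coeff 1 = (P.eval o.f).coeff 1 * x →
      ∃ r, x = algebraMap E.T.F E.T.C r)
    (η : Fin o.K → E.T.C) (hη : ∀ i, η i ∈ E.E) :
    ∃ (c : Fin G.K → LaurentSeries E.T.F) (e : E.T.C), (∀ a, OrdGE 0 (c a)) ∧ e ∈ E.E ∧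
      (G.linPart c).coeff 0 = ∑ i, E.emb.iC (o.f [i]) * η i -
        (e * (P.eval o.f).coeff 1 - (P.eval o.f).coeff 1 * e) := by
  classical
  let v : Fin o.K → LaurentSeries E.T.C := fun i => HahnSeries.C (η i)
  have hvm : ∀ i n, (v i).coeff n ∈ E.E := fun i n => by
    rcases eq_or_ne n 0 with rfl | hn
    · simpa [v] using hη i
    · simp [v, HahnSeries.coeff_single_of_ne hn]
  have hv0 : ∀ i, OrdGE 0 (v i) := fun i => ordGE_C _
  obtain ⟨c, e, hc, hem, hsplit⟩ := G.split v hvm hv0
  set lm := fun a => laurentMap (algebraMap E.T.F E.T.C) (c a) with hlm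
  have hlm0 : ∀ a, OrdGE 0 (lm a) := fun a k hk => by
    simp only [hlm, laurentMap_coeff, hc a k hk, map_zero]
  have hlmc : ∀ a y, lm a * y = y * lm a := fun a y => Algebra.commutes (c a) y
  let w : Finset (Fin G.K) → Fin o.K → LaurentSeries E.T.C := fun s i => ∑ a ∈ s, lm a * G.q a i
  have hw0 : ∀ s i, OrdGE 0 (w s i) := fun s i => OrdGE.sum _ _ fun a _ => by
    simpa using (hlm0 a).mul (G.q_int a i)
  have hDw : ∀ s, P.D o.f (w s) = ∑ a ∈ s, lm a * G.fLin a := by
    intro s
    induction s using Finset.induction with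
    | empty =>
      have h := P.D_smul (x := fun _ => 0) (fun _ => OrdGE.zero) (0 : LaurentSeries E.T.C)
        OrdGE.zero (fun b => by simp) o.f
      simpa [w] using h
    | insert a s ha ih =>
      have hx : w (insert a s) = (fun i => lm a * G.q a i) + w s :=
        funext fun i => Finset.sum_insert ha
      rw [hx, P.D_add (fun i => by simpa using (hlm0 a).mul (G.q_int a i)) (hw0 s),
        P.D_smul (G.q_int a) (lm a) (hlm0 a) (hlmc a), ih, Finset.sum_insert ha, G.fLin_eq]
  set θ' := P.eval o.f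
  have hg : ∀ i, e * P.p i - P.p i * e = v i - w Finset.univ i := fun i =>
    eq_sub_of_add_eq' (hsplit i).symm
  have hgint : ∀ i, OrdGE 0 (e * P.p i - P.p i * e) := fun i => by
    rw [hg]; exact (hv0 i).sub (hw0 _ i)
  have hD : P.D o.f v = G.linPart c + (e * θ' - θ' * e) := by
    have hx : v = w Finset.univ + fun i => e * P.p i - P.p i * e := funext fun i => hsplit i
    rw [hx, P.D_add (hw0 _) hgint, hDw, P.D_gauge_int e hem hgint]
    rfl
  have hL := G.linPart_ordGE hc
  have hB0 : OrdGE 0 (e * θ' - θ' * e) := by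
    rw [eq_sub_of_add_eq' hD.symm]
    exact (P.D_ordGE o.f).sub hL
  have hθ : OrdGE 0 θ' := P.eval_ordGE o.f
  have hcomm : ∀ x ∈ E.E, x * θ'.coeff 0 - θ'.coeff 0 * x = 0 := fun x hx => by
    rw [P.eval_coeff_zero, sub_eq_zero]
    exact (Sym.E_comm hx _).symm
  have step : ∀ k : ℤ, k < -1 → ∀ y : LaurentSeries E.T.C,
      (OrdGE k y ∧ (∀ n, y.coeff n ∈ E.E) ∧ y * θ' - θ' * y = e * θ' - θ' * e) →
      ∃ y' : LaurentSeries E.T.C, OrdGE (k + 1) y' ∧ (∀ n, y'.coeff n ∈ E.E) ∧
        y' * θ' - θ' * y' = e * θ' - θ' * e := by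
    rintro k hk y ⟨hy, hym, hyB⟩
    have h := Fin2.coeff_bracket_next hy hθ
    rw [hyB, hB0 _ (by omega), hcomm _ (hym _), zero_add, eq_comm, sub_eq_zero] at h
    obtain ⟨r, hr⟩ := hscal _ (hym k) h
    refine ⟨y - HahnSeries.single k (y.coeff k), Fin2.ordGE_succ (hy.sub (ordGE_single _ _))
      (by simp), fun n => ?_, ?_⟩
    · rcases eq_or_ne n k with rfl | hn
      · simp
      · simpa [HahnSeries.coeff_single_of_ne hn] using hym n
    · have hcen : HahnSeries.single k (y.coeff k) * θ' = θ' * HahnSeries.single k (y.coeff k) := by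
        ext m
        rw [show m = (m - k) + k by ring, HahnSeries.coeff_single_mul_add,
          HahnSeries.coeff_mul_single_add, hr, Algebra.commutes]
      rw [← hyB, sub_mul, mul_sub, hcen]
      abel
  obtain ⟨y, hy, hym, hyB⟩ : ∃ y : LaurentSeries E.T.C, OrdGE (-1) y ∧
      (∀ n, y.coeff n ∈ E.E) ∧ y * θ' - θ' * y = e * θ' - θ' * e := by
    obtain ⟨n, hn⟩ := exists_ordGE e
    rcases le_or_gt (-1) n with h | h
    · exact ⟨e, hn.mono h, hem, rfl⟩
    · exact Fin2.climb (fun k (y : LaurentSeries E.T.C) => OrdGE k y ∧ (∀ n, y.coeff n ∈ E.E) ∧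
        y * θ' - θ' * y = e * θ' - θ' * e) (B := -1) (n := n) (x := e) ⟨hn, hem, rfl⟩ step (-1)
        h.le le_rfl
  refine ⟨c, y.coeff (-1), hc, hym _, ?_⟩
  have h := Fin2.coeff_bracket_next hy hθ
  rw [hyB, show (-1 : ℤ) + 1 = 0 from rfl, hcomm _ (hym _), zero_add] at h
  have h0 := congrArg (fun z : LaurentSeries E.T.C => z.coeff 0) hD
  simp only [HahnSeries.coeff_add, h] at h0
  rw [P.D_coeff_zero hv0 (fun i => hvm i 0)] at h0
  rw [eq_sub_of_add_eq h0.symm]
  simp [v]

end Growth

end P199K
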