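import Vale.Agent.P199.Kurosh.Final.Words
import Vale.Agent.P199.Kurosh.Alg
import Vale.Agent.P199.Kurosh.Cyclic

/-! Solving `f(Y) h = h θ` degree by degree from two kernel pairs with an onto pairing. -/

open Finset

namespace P199K

namespace Obj

variable (o : Obj)

/-- Linearisation of the equation at a top degree. -/
noncomputable def topMap (b : (Fin o.K → o.S.F) × o.S.C) : o.S.C :=
  lin1 o.f b.1 + (o.θ * b.2 - b.2 * o.θ)

/-- The bilinear coefficient of two pairs. -/
noncomputable def cross (a b : (Fin o.K → o.S.F) × o.S.C) : o.S.C :=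
  quad2 o.f a.1 b.1 + lin1 o.f a.1 * b.2

/-- Two independent kernel pairs, mutually orthogonal, whose pairing is onto modulo the part where
vanishing holds. -/
structure Pairing where
  a : Fin 2 → (Fin o.K → o.S.F) × o.S.C
  ker : ∀ s, o.topMap (a s) = 0
  indep : LinearIndependent o.S.F fun s => (a s).1
  orth01 : ∀ z ∈ o.Kc, o.S.τ (z * o.cross (a 0) (a 1)) = 0
  onto : ∀ g : Fin 2 → o.S.C →ₗ[o.S.F] o.S.F,
    (∀ s, ∀ z ∈ o.S.cent o.θ ⊓ o.S.orth o.WL, g s z = 0) →
    ∃ b, o.topMap b = 0 ∧ ∀ s, ∀ z ∈ o.Kc, o.S.τ (z * o.cross (a s) b) = g s z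

theorem lin1_eq_Df (x : Fin o.K → o.S.F) : lin1 o.f x = o.Df x := by
  simp [lin1, Obj.Df, Algebra.smul_def]

theorem range_ad_le_T : LinearMap.range (o.S.ad o.θ) ≤ o.T := le_sup_right

theorem cent_orth_le_Kc : o.S.cent o.θ ⊓ o.S.orth o.WL ≤ o.Kc := by
  rintro z ⟨hz, hz'⟩ t ht
  obtain ⟨zc, hzc, y, rfl⟩ := Stg.exists_cent_add_ad o.θ t
  have hW : zc ∈ o.W := by
    refine ⟨?_, hzc⟩
    have := o.T.sub_mem ht (o.range_ad_le_T ⟨y, rfl⟩)
    simpa using this
  have hWL : zc ∈ o.WL := Submodule.subset_span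
    ⟨zc, hW, 1, one_mem (Algebra.adjoin o.S.F _), (mul_one zc).symm⟩
  rw [mul_add, map_add, hz' zc hWL, Stg.τ_cent_mul_ad hz, add_zero]

theorem exists_top {r : o.S.C} (hr : ∀ z ∈ o.Kc, o.S.τ (z * r) = 0) :
    ∃ b, o.topMap b = -r := by
  have h : r ∈ o.S.orth o.Kc := Stg.mem_orth'.2 hr
  rw [Obj.Kc, Stg.orth_orth] at h
  obtain ⟨u, ⟨x, rfl⟩, v, ⟨H, rfl⟩, e⟩ := Submodule.mem_sup.1 (o.T.neg_mem h)
  exact ⟨(x, H), by rw [topMap, o.lin1_eq_Df, ← Stg.ad_apply]; exact e⟩

/-- Change of the residual in the degree that is changed. -/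
theorem residual_top {Y Y' : Fin o.K → NS 2 o.S.F} {h h' : NS 2 o.S.C} {m : ℕ} (hm : 1 ≤ m)
    (hY : ∀ i, Y i [] = 0) (hY' : ∀ i, Y' i [] = 0)
    (hlow : ∀ i u, u.length < m → Y i u = Y' i u) (hhlow : ∀ u, u.length < m → h u = h' u)
    (h1 : h [] = 1) (w : List (Fin 2)) (hw : w.length = m) :
    o.residual Y' h' w = o.residual Y h w + o.topMap (fun a => Y' a w - Y a w, h' w - h w) := by
  set c := compY o.f Y
  set c' := compY o.f Y'
  have hc : ∀ u : List (Fin 2), u.length < w.length → (c' - c) u = 0 := fun u hu => by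
    rw [NS.sub_apply, sub_eq_zero]
    exact compY_congr hY' hY u _ fun i v hv => (hlow i v (by omega)).symm
  have hd : ∀ u : List (Fin 2), u.length < w.length → (h' - h) u = 0 := fun u hu => by
    rw [NS.sub_apply, hhlow u (hw ▸ hu), sub_self]
  have e : o.residual Y' h' - o.residual Y h =
      (c' - c) * h + c' * (h' - h) - (h' - h) * NS.const o.θ := by
    simp only [residual, c, c', sub_mul, mul_sub]
    abel
  have := congrArg (fun r : NS 2 o.S.C => r w) e
  simp only [NS.sub_apply, NS.add_apply, NS.mul_top w (c' - c) h hc,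
    NS.mul_top_right w c' (h' - h) hd, NS.mul_const, h1, mul_one] at this
  rw [← sub_eq_iff_eq_add', this, topMap, ← compY_change_top hY hY' hlow w hw hm]
  simp only [c, c', compY_nil]
  rw [show o.f [] = o.θ from rfl]
  abel

/-- Change of the residual one degree above the changed degree. -/
theorem residual_next {Y Y' : Fin o.K → NS 2 o.S.F} {h h' : NS 2 o.S.C} {m : ℕ} (hm : 2 ≤ m)
    (hY : ∀ i, Y i [] = 0) (hY' : ∀ i, Y' i [] = 0)
    (hlow : ∀ i u, u.length ≠ m → Y i u = Y' i u) (hhlow : ∀ u, u.length ≠ m → h u = h' u)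
    (h1 : h [] = 1) {w : List (Fin 2)} {i j : Fin 2} {u u' : List (Fin 2)} (hw : w = i :: u)
    (hw' : w = u' ++ [j]) (hu : u.length = m) :
    o.residual Y' h' w = o.residual Y h w +
      (o.cross (fun a => Y a [i], h [i]) (fun a => Y' a u - Y a u, h' u - h u) +
        o.cross (fun a => Y' a u' - Y a u', h' u' - h u') (fun a => Y a [j], h [j])) := by
  set c := compY o.f Y
  set c' := compY o.f Y'
  have hwl : w.length = m + 1 := by rw [hw]; simp [hu]
  have hu' : u'.length = m := by rw [hw'] at hwl; simpa using hwl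
  have hlow' : ∀ i v, List.length v < m → Y i v = Y' i v := fun i v hv => hlow i v (by omega)
  have hc : ∀ v : List (Fin 2), v.length < u'.length → (c' - c) v = 0 := fun v hv => by
    rw [NS.sub_apply, sub_eq_zero]
    exact compY_congr hY' hY v _ fun a z hz => (hlow' a z (by omega)).symm
  have hd : ∀ v : List (Fin 2), v.length ≠ m → (h' - h) v = 0 := fun v hv => by
    rw [NS.sub_apply, hhlow v hv, sub_self]
  have e : o.residual Y' h' - o.residual Y h =
      (c' - c) * h + c' * (h' - h) - (h' - h) * NS.const o.θ := by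
    simp only [residual, c, c', sub_mul, mul_sub]
    abel
  have hwd : (h' - h) w = 0 := hd w (by omega)
  have := congrArg (fun r : NS 2 o.S.C => r w) e
  simp only [NS.sub_apply, NS.add_apply, NS.mul_const] at this
  rw [show ((c' - c) * h) w = (c' - c) w * 1 + (c' - c) u' * h [j] by
      rw [hw', NS.mul_next u' j _ _ hc, h1],
    show (c' * (h' - h)) w = c' [] * (h' - h) w + c' [i] * (h' - h) u by
      rw [hw, NS.mul_next_right i u _ _ fun v hv => hd v (by omega)],
    ← NS.sub_apply h' h w, hwd, mul_zero, zero_add, zero_mul, sub_zero, mul_one] at this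
  simp only [NS.sub_apply, c, c'] at this
  rw [compY_change_next hY hY' hlow' hm w i j u u' hw hw' hu
      (fun a => hlow a w (by omega)) o.f,
    compY_change_top hY hY' hlow' u' hu' (by omega) o.f, compY_single hY'] at this
  rw [← sub_eq_iff_eq_add', this, cross, cross]
  have e4 : (fun a => Y' a [i]) = fun a => Y a [i] :=
    funext fun a => (hlow' a [i] (by simp; omega)).symm
  rw [e4]
  abel

theorem residual_congr {Y Y' : Fin o.K → NS 2 o.S.F} {h h' : NS 2 o.S.C} (w : List (Fin 2))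
    (hY : ∀ i, Y i [] = 0) (hY' : ∀ i, Y' i [] = 0)
    (e : ∀ i u, List.length u ≤ w.length → Y i u = Y' i u)
    (eh : ∀ u, List.length u ≤ w.length → h u = h' u) :
    o.residual Y h w = o.residual Y' h' w := by
  simp only [residual, NS.sub_apply, NS.mul_const]
  rw [NS.mul_congr w (compY o.f Y) (compY o.f Y') h h'
    (fun u hu => compY_congr hY hY' u _ fun i v hv => e i v (hv.trans hu)) eh, eh w le_rfl]

/-- The series with prescribed linear parts only. -/
def linY (a : Fin 2 → (Fin o.K → o.S.F) × o.S.C) : Fin o.K → NS 2 o.S.F :=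
  fun i w => match w with
    | [s] => (a s).1 i
    | _ => 0

/-- The conjugator with prescribed linear part only. -/
def linH (a : Fin 2 → (Fin o.K → o.S.F) × o.S.C) : NS 2 o.S.C :=
  fun w => match w with
    | [] => 1
    | [s] => (a s).2
    | _ => 0

theorem linY_solved (a : Fin 2 → (Fin o.K → o.S.F) × o.S.C) (ha : ∀ s, o.topMap (a s) = 0) :
    o.SolvedBelow 2 (o.linY a) (o.linH a) := by
  refine ⟨fun _ => rfl, rfl, fun w hw => ?_⟩
  have h0 : ∀ i, o.linY a i [] = 0 := fun _ => rfl
  match w with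
  | [] =>
    simp only [residual, NS.sub_apply, NS.mul_nil, compY_nil, NS.const_nil]
    show o.f [] * 1 - 1 * o.θ = 0
    rw [mul_one, one_mul]
    exact sub_self _
  | [s] =>
    simp only [residual, NS.sub_apply, NS.mul_cons, NS.mul_nil, NS.shift_apply, compY_nil,
      compY_single h0, NS.const_cons, NS.const_nil, mul_zero, zero_add]
    show o.θ * (a s).2 + lin1 o.f (a s).1 * 1 - (a s).2 * o.θ = 0
    rw [← ha s, topMap, mul_one]
    abel
  | _ :: _ :: _ => simp only [List.length_cons] at hw; omega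

theorem residual_lin_two (a : Fin 2 → (Fin o.K → o.S.F) × o.S.C) (s t : Fin 2) :
    o.residual (o.linY a) (o.linH a) [s, t] = o.cross (a s) (a t) := by
  have h0 : ∀ i, o.linY a i [] = 0 := fun _ => rfl
  have hq : compY o.f (o.linY a) [s, t] = quad2 o.f (a s).1 (a t).1 := by
    simp only [compY_cons h0, compY_single h0, NS.mul_cons, NS.mul_nil, NS.shift_apply, yC_apply,
      compY_nil, quad2]
    refine Finset.sum_congr rfl fun i _ => ?_
    simp [linY, lin1]
  simp only [residual, NS.sub_apply, NS.mul_const, NS.mul_cons, NS.mul_nil, NS.shift_apply,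
    compY_single h0, hq, compY_nil]
  rw [show (fun i => o.linY a i [s]) = (a s).1 from rfl]
  simp [linH, cross, add_comm]

/-- Antisymmetry of the pairing and its vanishing, from the vanishing statement in degree two. -/
theorem cross_vanish (hV : VanishStmt) {root : Obj} (ho : Obj.Minimal root o)
    {a b : (Fin o.K → o.S.F) × o.S.C} (ha : o.topMap a = 0) (hb : o.topMap b = 0) :
    (∀ z ∈ o.Kc, o.S.τ (z * o.cross a b) = - o.S.τ (z * o.cross b a)) ∧
      ∀ z ∈ o.S.cent o.θ ⊓ o.S.orth o.WL, o.S.τ (z * o.cross a b) = 0 := by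
  have hker : ∀ s, o.topMap (![a, b] s) = 0 := by
    intro s
    fin_cases s
    · exact ha
    · exact hb
  obtain ⟨h1, h2⟩ := hV root o ho 2 le_rfl _ _ (o.linY_solved ![a, b] hker)
  refine ⟨fun z hz => ?_, fun z hz => ?_⟩
  · have := h1 z hz [0, 1] rfl
    simp only [Finset.sum_range_succ, Finset.sum_range_zero, zero_add, List.rotate_zero] at this
    rw [show ([0, 1] : List (Fin 2)).rotate 1 = [1, 0] from rfl, residual_lin_two,
      residual_lin_two] at this
    exact eq_neg_of_add_eq_zero_left this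
  · have := h2 z hz [0, 1] rfl
    rwa [residual_lin_two] at this

theorem cross_self (hV : VanishStmt) {root : Obj} (ho : Obj.Minimal root o)
    {a : (Fin o.K → o.S.F) × o.S.C} (ha : o.topMap a = 0) {z : o.S.C} (hz : z ∈ o.Kc) :
    o.S.τ (z * o.cross a a) = 0 :=
  CharZero.eq_neg_self_iff.mp ((o.cross_vanish hV ho ha ha).1 z hz)

variable {o}

/-- An incomplete solution with the linear parts of a pairing. -/
def Pairing.Sol (P : o.Pairing) (n : ℕ) (p : (Fin o.K → NS 2 o.S.F) × NS 2 o.S.C) : Prop :=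
  o.SolvedBelow n p.1 p.2 ∧ ∀ s, (fun i => p.1 i [s]) = (P.a s).1 ∧ p.2 [s] = (P.a s).2

open scoped Classical in
/-- Correct one degree. -/
theorem Pairing.fix_top (P : o.Pairing) {n : ℕ} (hn : 2 ≤ n)
    {Y : Fin o.K → NS 2 o.S.F} {h : NS 2 o.S.C} (hs : P.Sol n (Y, h))
    (hr : ∀ w : List (Fin 2), w.length = n → ∀ z ∈ o.Kc, o.S.τ (z * o.residual Y h w) = 0) :
    ∃ p : (Fin o.K → NS 2 o.S.F) × NS 2 o.S.C, P.Sol (n + 1) p ∧
      ∀ u : List (Fin 2), u.length < n → (∀ i, p.1 i u = Y i u) ∧ p.2 u = h u := by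
  obtain ⟨⟨hY, h1, hlow⟩, hlin⟩ := hs
  dsimp only at hY h1 hlow hlin
  choose b hb using fun (w : List (Fin 2)) (hw : w.length = n) => o.exists_top (hr w hw)
  let bb : List (Fin 2) → (Fin o.K → o.S.F) × o.S.C :=
    fun w => if hw : w.length = n then b w hw else 0
  let Y' : Fin o.K → NS 2 o.S.F := fun i w => Y i w + (bb w).1 i
  let h' : NS 2 o.S.C := fun w => h w + (bb w).2
  have hsame : ∀ u : List (Fin 2), u.length ≠ n → (∀ i, Y' i u = Y i u) ∧ h' u = h u := fun u hu => by
    simp [Y', h', bb, dif_neg hu]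
  have hY' : ∀ i, Y' i [] = 0 := fun i => by rw [(hsame [] (by simp; omega)).1, hY]
  refine ⟨(Y', h'), ⟨⟨hY', show h' [] = 1 by rw [(hsame [] (by simp; omega)).2, h1], fun w hw => ?_⟩, fun s => ?_⟩,
    fun u hu => hsame u hu.ne⟩
  · rcases (Nat.le_of_lt_succ hw).lt_or_eq with hw' | hw'
    · rw [← o.residual_congr w hY hY' (fun i u hu => ((hsame u (by omega)).1 i).symm)
        fun u hu => ((hsame u (by omega)).2).symm]
      exact hlow w hw'
    · rw [o.residual_top (m := n) (by omega) hY hY'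
        (fun i u hu => ((hsame u hu.ne).1 i).symm) (fun u hu => ((hsame u hu.ne).2).symm) h1 w hw']
      have e : ((fun a => Y' a w - Y a w), h' w - h w) = b w hw' := by
        simp [Y', h', bb, dif_pos hw']
      rw [e, hb, add_neg_cancel]
  · obtain ⟨e1, e2⟩ := hsame [s] (by simp; omega)
    exact ⟨by rw [← (hlin s).1]; exact funext e1, by rw [← (hlin s).2]; exact e2⟩

theorem rotate_ofFn {α : Type} {n : ℕ} (v : Fin (n + 1) → α) (p : Fin (n + 1)) :
    (List.ofFn v).rotate p.val = List.ofFn fun j => v (p + j) := by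
  refine List.ext_getElem (by simp) fun k h1 h2 => ?_
  rw [List.getElem_rotate, List.getElem_ofFn, List.getElem_ofFn]
  congr 1
  ext
  simp [Fin.val_add, add_comm]

/-- The residual in degree `n + 1` is made orthogonal by changes in degree `n`. -/
theorem Pairing.step (hV : VanishStmt) {root : Obj} (ho : Obj.Minimal root o) (P : o.Pairing)
    {n : ℕ} (hn : 2 ≤ n) {p : (Fin o.K → NS 2 o.S.F) × NS 2 o.S.C} (hs : P.Sol (n + 1) p) :
    ∃ p' : (Fin o.K → NS 2 o.S.F) × NS 2 o.S.C, P.Sol (n + 1 + 1) p' ∧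
      ∀ u : List (Fin 2), u.length < n → (∀ i, p'.1 i u = p.1 i u) ∧ p'.2 u = p.2 u := by
  classical
  obtain ⟨Y, h⟩ := p
  obtain ⟨⟨hY, h1, hlow⟩, hlin⟩ := hs
  dsimp only at hY h1 hlow hlin
  obtain ⟨v1, v2⟩ := hV root o ho (n + 1) (by omega) Y h ⟨hY, h1, hlow⟩
  let K1 := o.S.cent o.θ ⊓ o.S.orth o.WL
  let V : Submodule o.S.F (o.Kc →ₗ[o.S.F] o.S.F) :=
    { carrier := {φ | ∀ z : o.Kc, (z : o.S.C) ∈ K1 → φ z = 0}
      zero_mem' := fun _ _ => rfl
      add_mem' := fun {f g} hf hg z hz => by simp [hf z hz, hg z hz]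
      smul_mem' := fun r f hf z hz => by simp [hf z hz] }
  let c : (Fin (n + 1) → Fin 2) → V := fun v =>
    ⟨(o.S.τ.comp (LinearMap.mulRight o.S.F (o.residual Y h (List.ofFn v)))).comp o.Kc.subtype,
      fun z hz => v2 z hz _ (by simp)⟩
  have hcyc : ∀ v : Fin (n + 1) → Fin 2, ∑ q : Fin (n + 1), c (fun j => v (q + j)) = 0 := by
    intro v
    refine Subtype.ext (LinearMap.ext fun z => ?_)
    simp only [Submodule.coe_sum, LinearMap.sum_apply, Submodule.coe_zero, LinearMap.zero_apply, c,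
      ← rotate_ofFn]
    rw [← v1 z z.2 (List.ofFn v) (by simp), Finset.sum_range]
    rfl
  obtain ⟨G, hG⟩ := Vale.Agent.P199.Kurosh.exists_commutator_of_cyclic_zero (k := o.S.F) c hcyc
  have hb : ∀ v : Fin n → Fin 2, ∃ b, o.topMap b = 0 ∧
      ∀ s, ∀ z : o.Kc, o.S.τ (z * o.cross (P.a s) b) = - (G s v : o.Kc →ₗ[o.S.F] o.S.F) z := by
    intro v
    choose g hg using fun s => LinearMap.exists_extend (G s v : o.Kc →ₗ[o.S.F] o.S.F)
    have hg' : ∀ s, ∀ z : o.Kc, g s z = (G s v : o.Kc →ₗ[o.S.F] o.S.F) z := fun s z => by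
      rw [← hg s]
      rfl
    obtain ⟨b, hb1, hb2⟩ := P.onto (fun s => - g s) fun s z hz => by
      have := hg' s ⟨z, o.cent_orth_le_Kc hz⟩
      have h0 := (G s v).2 ⟨z, o.cent_orth_le_Kc hz⟩ hz
      show -(g s z) = 0
      rw [this, h0, neg_zero]
    exact ⟨b, hb1, fun s z => by rw [hb2 s z z.2, LinearMap.neg_apply, hg']⟩
  choose b hbker hbval using hb
  let bb : List (Fin 2) → (Fin o.K → o.S.F) × o.S.C :=
    fun w => if hw : w.length = n then b fun i => w.get (i.cast hw.symm) else 0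
  have hbb : ∀ v : Fin n → Fin 2, bb (List.ofFn v) = b v := fun v => by
    simp only [bb, List.length_ofFn, dif_pos]
    congr 1
    funext i
    simp
  let Y' : Fin o.K → NS 2 o.S.F := fun i w => Y i w + (bb w).1 i
  let h' : NS 2 o.S.C := fun w => h w + (bb w).2
  have hsame : ∀ u : List (Fin 2), u.length ≠ n → (∀ i, Y' i u = Y i u) ∧ h' u = h u := fun u hu => by
    simp [Y', h', bb, dif_neg hu]
  have hY' : ∀ i, Y' i [] = 0 := fun i => by rw [(hsame [] (by simp; omega)).1, hY]
  have hs' : P.Sol (n + 1) (Y', h') := by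
    refine ⟨⟨hY', show h' [] = 1 by rw [(hsame [] (by simp; omega)).2, h1], fun w hw => ?_⟩, fun s => ?_⟩
    · rcases (Nat.le_of_lt_succ hw).lt_or_eq with hw' | hw'
      · rw [← o.residual_congr w hY hY' (fun i u hu => ((hsame u (by omega)).1 i).symm)
          fun u hu => ((hsame u (by omega)).2).symm]
        exact hlow w hw
      · rw [o.residual_top (m := n) (by omega) hY hY'
          (fun i u hu => ((hsame u hu.ne).1 i).symm) (fun u hu => ((hsame u hu.ne).2).symm) h1 w hw']
        have e : ((fun a => Y' a w - Y a w), h' w - h w) = bb w := by simp [Y', h']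
        rw [e, hlow w hw, zero_add]
        simp only [bb, dif_pos hw']
        exact hbker _
    · obtain ⟨e1, e2⟩ := hsame [s] (by simp; omega)
      exact ⟨by rw [← (hlin s).1]; exact funext e1, by rw [← (hlin s).2]; exact e2⟩
  have hr : ∀ w : List (Fin 2), w.length = n + 1 → ∀ z ∈ o.Kc,
      o.S.τ (z * o.residual Y' h' w) = 0 := by
    intro w hw z hz
    obtain ⟨v, rfl⟩ : ∃ v : Fin (n + 1) → Fin 2, w = List.ofFn v :=
      ⟨fun i => w.get (i.cast hw.symm), List.ext_getElem (by simp only [List.length_ofFn, hw])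
        fun i _ _ => by simp only [List.getElem_ofFn]; rfl⟩
    have e1 : List.ofFn v = v 0 :: List.ofFn (Fin.tail v) := List.ofFn_succ ..
    have e2 : List.ofFn v = List.ofFn (Fin.init v) ++ [v (Fin.last n)] := by
      rw [List.ofFn_succ']
      simp only [List.concat_eq_append]
      rfl
    rw [o.residual_next hn hY hY' (fun i u hu => ((hsame u hu).1 i).symm)
      (fun u hu => ((hsame u hu).2).symm) h1 e1 e2 (by simp)]
    have hd : ∀ x : Fin n → Fin 2, ((fun a => Y' a (List.ofFn x) - Y a (List.ofFn x)),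
        h' (List.ofFn x) - h (List.ofFn x)) = b x := fun x => by simp [Y', h', hbb]
    have hl : ∀ s, ((fun a => Y a [s]), h [s]) = P.a s := fun s =>
      Prod.ext (hlin s).1 (hlin s).2
    rw [hd, hd, hl, hl, mul_add, map_add, mul_add, map_add,
      (o.cross_vanish hV ho (hbker (Fin.init v)) (P.ker (v (Fin.last n)))).1 z hz]
    have hc := congrArg (fun φ : V => (φ : o.Kc →ₗ[o.S.F] o.S.F) ⟨z, hz⟩) (hG v)
    simp only [c, LinearMap.comp_apply, LinearMap.mulRight_apply, Submodule.subtype_apply,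
      AddSubgroupClass.coe_sub, LinearMap.sub_apply] at hc
    rw [hc, hbval _ _ ⟨z, hz⟩, hbval _ _ ⟨z, hz⟩]
    abel
  obtain ⟨p', hp', hagree⟩ := P.fix_top (by omega) hs' hr
  refine ⟨p', hp', fun u hu => ?_⟩
  obtain ⟨a1, a2⟩ := hagree u (by omega)
  obtain ⟨c1, c2⟩ := hsame u hu.ne
  exact ⟨fun i => (a1 i).trans (c1 i), a2.trans c2⟩

theorem Pairing.start (hV : VanishStmt) {root : Obj} (ho : Obj.Minimal root o) (P : o.Pairing) :
    ∃ p : (Fin o.K → NS 2 o.S.F) × NS 2 o.S.C, P.Sol 3 p := by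
  obtain ⟨p, hp, -⟩ := P.fix_top le_rfl (Y := o.linY P.a) (h := o.linH P.a)
    ⟨o.linY_solved P.a P.ker, fun s => ⟨rfl, rfl⟩⟩ (by
      intro w hw z hz
      match w, hw with
      | [s, t], _ =>
        rw [residual_lin_two]
        fin_cases s <;> fin_cases t
        · exact o.cross_self hV ho (P.ker 0) hz
        · exact P.orth01 z hz
        · exact ((o.cross_vanish hV ho (P.ker 1) (P.ker 0)).1 z hz).trans
            (neg_eq_zero.mpr (P.orth01 z hz))
        · exact o.cross_self hV ho (P.ker 1) hz)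
  exact ⟨p, hp⟩

open Polynomial in
/-- A conjugate of a constant is algebraic. -/
theorem isAlgebraic_of_semiconj {C : Type} [DivisionRing C] {F : Type} [Field F] [Algebra F C]
    [FiniteDimensional F C] {K : ℕ} {g h : NS K C} {c : C} (h1 : h [] = 1)
    (e : g * h = h * NS.const c) : IsAlgebraic F g := by
  obtain ⟨p, hp0, hp⟩ := (Algebra.IsAlgebraic.isAlgebraic (R := F) c)
  refine ⟨p, hp0, NS.eq_zero_of_mul_eq_zero h1 ?_⟩
  let φ : C →ₐ[F] NS K C := { NS.constHom with commutes' := fun _ => rfl }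
  have hs : SemiconjBy h (NS.const c) g := e.symm
  have hq : ∀ q : F[X], SemiconjBy h (aeval (φ c) q) (aeval g q) := by
    intro q
    induction q using Polynomial.induction_on' with
    | add p q hp hq => rw [map_add, map_add]; exact hp.add_right hq
    | monomial k r =>
      rw [aeval_monomial, aeval_monomial]
      exact (show SemiconjBy h (algebraMap F (NS K C) r) (algebraMap F (NS K C) r) from
        (Algebra.commutes r h).symm).mul_right (hs.pow_right k)
  have := (hq p).eq
  rw [aeval_algHom_apply, hp, map_zero, mul_zero] at this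
  exact this.symm

/-- A minimal state with a pairing leads to an algebraic descendant. -/
theorem good_of_pairing (hS : SubstStmt) (hV : VanishStmt) {root : Obj} (ho : Obj.Minimal root o)
    (P : o.Pairing) : root.Good := by
  obtain ⟨p0, hp0⟩ := P.start hV ho
  have hstep : ∀ k : ℕ, ∀ p, P.Sol (k + 3) p → ∃ p', P.Sol (k + 1 + 3) p' ∧
      ∀ u : List (Fin 2), u.length < k + 2 → (∀ i, p'.1 i u = p.1 i u) ∧ p'.2 u = p.2 u :=
    fun k p hp => P.step hV ho (n := k + 2) (by omega) hp
  choose f hf1 hf2 using hstep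
  let seq : ∀ k : ℕ, {p // P.Sol (k + 3) p} :=
    fun k => Nat.rec ⟨p0, hp0⟩ (fun k p => ⟨f k p.1 p.2, hf1 k p.1 p.2⟩) k
  have hstable : ∀ k l, k ≤ l → ∀ u : List (Fin 2), u.length < k + 2 →
      (∀ i, (seq l).1.1 i u = (seq k).1.1 i u) ∧ (seq l).1.2 u = (seq k).1.2 u := by
    intro k l hkl
    induction l, hkl using Nat.le_induction with
    | base => exact fun u _ => ⟨fun _ => rfl, rfl⟩
    | succ l hl ih =>
      intro u hu
      obtain ⟨a1, a2⟩ := hf2 l (seq l).1 (seq l).2 u (by omega)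
      obtain ⟨b1, b2⟩ := ih u hu
      exact ⟨fun i => (a1 i).trans (b1 i), a2.trans b2⟩
  let Y : Fin o.K → NS 2 o.S.F := fun i w => (seq w.length).1.1 i w
  let h : NS 2 o.S.C := fun w => (seq w.length).1.2 w
  have hY : ∀ i, Y i [] = 0 := fun i => (seq 0).2.1.1 i
  have h1 : h [] = 1 := (seq 0).2.1.2.1
  have hres : o.residual Y h = 0 := NS.ext fun w => by
    have hag : ∀ u : List (Fin 2), u.length ≤ w.length →
        (∀ i, (seq w.length).1.1 i u = Y i u) ∧ (seq w.length).1.2 u = h u :=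
      fun u hu => hstable u.length w.length hu u (by omega)
    rw [o.residual_congr w hY (seq w.length).2.1.1 (fun i u hu => ((hag u hu).1 i).symm)
      fun u hu => ((hag u hu).2).symm]
    exact (seq w.length).2.1.2.2 w (by omega)
  have hlin : LinearIndependent o.S.F fun (s : Fin 2) (i : Fin o.K) => Y i [s] := by
    have e : (fun (s : Fin 2) (i : Fin o.K) => Y i [s]) = fun s => (P.a s).1 :=
      funext fun s => ((seq 1).2.2 s).1
    rw [e]
    exact P.indep
  obtain ⟨y, hy⟩ := hS o ho.state.1.1 Y hY hlin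
  exact ⟨_, ho.state.1.trans hy, isAlgebraic_of_semiconj h1 (sub_eq_zero.mp hres)⟩

end Obj

end P199K
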