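import Vale.Agent.P199.Kurosh.Final.Base
import Vale.Agent.P199.Kurosh.SymKit
import Vale.Agent.P199.Kurosh.Rank

/-! Constant level computations in a symbol extension: the test element, the directions used for the
pairing and the independence of the leading functionals. -/

open Module Submodule Finset

namespace P199K

namespace Fin2

variable {o : Obj} {M : ℕ} (m : Model o) (E : Sym o.S M)

/-- The two monomial directions. -/
noncomputable def mon (s : Fin 2) : E.T.C := E.X ^ ((s : ℕ) + 1) * E.Y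

/-- The span of products of the tangent space and the monomial span. -/
noncomputable def WE : Submodule E.T.F E.T.C :=
  span E.T.F {z | ∃ w ∈ o.W, ∃ e ∈ E.E, z = E.emb.iC w * e}

/-- The centraliser of the base value and of the test element. -/
noncomputable def centZ : Submodule E.T.F E.T.C :=
  E.T.cent (E.emb.iC o.θ) ⊓ E.T.cent (m.Z E)

theorem KZ_eq_inf : m.KZ E = centZ m E ⊓ E.T.orth (WE E) := rfl

theorem Z_eq : m.Z E = E.emb.iC (m.ω * m.w0) * E.X + E.emb.iC (m.ω * m.w1) * E.Y := by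
  rw [Model.Z, map_mul, map_mul, mul_add, ← mul_assoc, ← mul_assoc]

theorem mon_mem (s : Fin 2) : mon E s ∈ E.E := E.mul_mem_E (E.pow_mem_E E.X_mem_E _) E.Y_mem_E

theorem dim_ne (E : Sym o.S M) : (o.S.dim : E.T.F) ≠ 0 := Nat.cast_ne_zero.2 o.S.dim_pos.ne'

theorem τ_Kc_W {l w : o.S.C} (hl : l ∈ o.Kc) (hw : w ∈ o.W) : o.S.τ (l * w) = 0 :=
  hl w (Submodule.mem_inf.1 hw).1

theorem Kc_cent {l : o.S.C} (hl : l ∈ o.Kc) : l ∈ o.S.cent o.θ := by
  rw [← Stg.orth_range_ad]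
  exact Stg.orth_anti le_sup_right hl

/-- A base element commuting with both coefficients commutes with the test element. -/
theorem iC_comm_Z {c : o.S.C} (h0 : Commute c (m.ω * m.w0)) (h1 : Commute c (m.ω * m.w1)) :
    Commute (E.emb.iC c) (m.Z E) := by
  rw [Z_eq]
  exact ((h0.map E.emb.iC).mul_right (E.X_comm c).symm).add_right
    ((h1.map E.emb.iC).mul_right (E.Y_comm c).symm)

/-- A base element times a bracket of the monomial span with the test element. -/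
theorem iC_bracket (c : o.S.C) {e : E.T.C} (he : e ∈ E.E) :
    E.emb.iC c * (e * m.Z E - m.Z E * e) =
      E.emb.iC (c * (m.ω * m.w0)) * (e * E.X - E.X * e) +
        E.emb.iC (c * (m.ω * m.w1)) * (e * E.Y - E.Y * e) := by
  rw [Z_eq, mul_add, add_mul, ← mul_assoc e, ← mul_assoc e, (E.mem_E_iff e).1 he,
    (E.mem_E_iff e).1 he]
  simp only [map_mul, mul_assoc, mul_sub, mul_add]
  abel

theorem iC_mul_iC (a c : o.S.C) {u : E.T.C} (hu : u ∈ E.E) (e' : E.T.C) :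
    E.emb.iC a * u * (E.emb.iC c * e') = E.emb.iC (a * c) * (u * e') := by
  rw [mul_assoc, ← mul_assoc u, (E.mem_E_iff u).1 hu, mul_assoc (E.emb.iC c), ← mul_assoc,
    ← map_mul]

theorem bracket_mem_E {e a : E.T.C} (he : e ∈ E.E) (ha : a ∈ E.E) : e * a - a * e ∈ E.E :=
  Submodule.sub_mem _ (E.mul_mem_E he ha) (E.mul_mem_E ha he)

theorem iC_mem_cent {c : o.S.C} (hc : c ∈ o.S.cent o.θ) :
    E.emb.iC c ∈ E.T.cent (E.emb.iC o.θ) := by
  rw [Stg.mem_cent, ← map_mul, Stg.mem_cent.1 hc, map_mul]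

theorem E_le_cent : E.E ≤ E.T.cent (E.emb.iC o.θ) := by
  exact fun e he => Stg.mem_cent.2 ((E.mem_E_iff e).1 he o.θ).symm

theorem Z_mem_cent (hW : o.W ≤ o.S.gen o.θ) : m.Z E ∈ E.T.cent (E.emb.iC o.θ) := by
  rw [Z_eq]
  exact Submodule.add_mem _
    (Stg.mul_mem_cent (iC_mem_cent E (W_le_cent o m.w0_mem)) (E_le_cent E E.X_mem_E))
    (Stg.mul_mem_cent (iC_mem_cent E (W_le_cent o m.w1_mem)) (E_le_cent E E.Y_mem_E))

theorem τ_iC_E_zero {c : o.S.C} (hc : o.S.τ c = 0) {e : E.T.C} (he : e ∈ E.E) :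
    E.T.τ (E.emb.iC c * e) = 0 := by
  have h := E.τ_iC_mul c he
  rw [hc, map_zero, zero_mul] at h
  exact (mul_eq_zero.1 h).resolve_left (dim_ne E)

theorem τ_iC_E_one {c : o.S.C} (hc : o.S.τ c = 1) {e : E.T.C} (he : e ∈ E.E) :
    (o.S.dim : E.T.F) * E.T.τ (E.emb.iC c * e) = E.T.τ e := by
  rw [E.τ_iC_mul c he, hc, map_one, one_mul]

/-- A bracket is invisible for a coefficient that kills both test coefficients. -/
theorem τ_bracket_zero {c : o.S.C} (h0 : o.S.τ (c * (m.ω * m.w0)) = 0)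
    (h1 : o.S.τ (c * (m.ω * m.w1)) = 0) {e e' : E.T.C} (he : e ∈ E.E) (he' : e' ∈ E.E) :
    E.T.τ (E.emb.iC c * (e * m.Z E - m.Z E * e) * e') = 0 := by
  rw [iC_bracket m E c he, add_mul, map_add, mul_assoc, mul_assoc,
    τ_iC_E_zero E h0 (E.mul_mem_E (bracket_mem_E E he E.X_mem_E) he'),
    τ_iC_E_zero E h1 (E.mul_mem_E (bracket_mem_E E he E.Y_mem_E) he'), add_zero]

theorem τ_X_inv (hM : 2 ≤ M) : E.T.τ E.X⁻¹ = 0 := by
  obtain ⟨x, hx⟩ := E.X_pow
  have hx0 : x ≠ 0 := fun h => pow_ne_zero M E.X_ne (by rw [← hx, h, map_zero])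
  have h1 : E.X⁻¹ = x⁻¹ • E.X ^ (M - 1) := by
    refine inv_eq_of_mul_eq_one_right ?_
    rw [mul_smul_comm, ← pow_succ', Nat.sub_add_cancel (by omega), ← hx,
      Algebra.algebraMap_eq_smul_one, smul_smul, inv_mul_cancel₀ hx0, one_smul]
  have h2 := E.τ_monomial_zero 1 ⟨M - 1, by omega⟩ ⟨0, by omega⟩
    (Or.inl (by show M - 1 ≠ 0; omega))
  rw [map_one, one_mul, pow_zero, mul_one] at h2
  rw [h1, map_smul, h2, smul_zero]

theorem τ_X (hM : 2 ≤ M) : E.T.τ E.X = 0 := by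
  simpa using E.τ_monomial_zero 1 ⟨1, by omega⟩ ⟨0, by omega⟩ (Or.inl one_ne_zero)

/-- The two monomial directions are orthogonal to each other's inverse. -/
theorem τ_mon_inv (hM : 2 ≤ M) (a b : Fin 2) :
    E.T.τ (mon E a * (mon E b)⁻¹) = if a = b then (E.T.dim : E.T.F) else 0 := by
  have h : mon E a * (mon E b)⁻¹ = E.X ^ ((a : ℕ) + 1) * (E.X ^ ((b : ℕ) + 1))⁻¹ := by
    rw [mon, mon, mul_inv_rev, mul_assoc, ← mul_assoc E.Y, mul_inv_cancel₀ E.Y_ne, one_mul]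
  fin_cases a <;> fin_cases b <;> rw [h] <;>
    simp [pow_succ, E.X_ne, E.τ_one, τ_X E hM, τ_X_inv E hM, mul_assoc, mul_inv_rev]

/-- Explicit preimages of the directions. -/
theorem exists_g_mul (hW : o.W ≤ o.S.gen o.θ) {v : o.S.C} (hv : m.ω * v ∈ o.W) (hM : 3 ≤ M)
    (s : Fin 2) : ∃ c : o.S.C, ∃ a ∈ E.E,
      E.emb.iC c * a * m.Z E - m.Z E * (E.emb.iC c * a) = E.emb.iC (m.ω * v) * mon E s ∧
      (s = 1 → ∃ k : E.T.F, a = k • E.X ^ 2) := by
  have hω := hW m.ω_mem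
  have hw : ∀ {w : o.S.C}, m.ω * w ∈ o.W → w ∈ o.S.gen o.θ := fun {w} h => by
    rw [show w = m.ω⁻¹ * (m.ω * w) by simp [m.ω_ne]]
    exact Stg.gen_mul (Stg.gen_inv hω) (hW h)
  -- coefficient cancellation and commutation
  have hcoef : ∀ {w : o.S.C}, w ≠ 0 → m.ω * w ∈ o.W →
      v * w⁻¹ ∈ o.S.gen o.θ ∧ v * w⁻¹ * (m.ω * w) = m.ω * v := fun {w} hw0 h => by
    refine ⟨Stg.gen_mul (hw hv) (Stg.gen_inv (hw h)), ?_⟩
    rw [Stg.gen_comm hω (hw h), mul_assoc, ← mul_assoc w⁻¹, inv_mul_cancel₀ hw0, one_mul,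
      Stg.gen_comm (hw hv) hω]
  have hg : ∀ {c : o.S.C}, c ∈ o.S.gen o.θ → ∀ {a : E.T.C}, a ∈ E.E →
      E.emb.iC c * a * m.Z E - m.Z E * (E.emb.iC c * a) =
        E.emb.iC (c * (m.ω * m.w0)) * (a * E.X - E.X * a) +
          E.emb.iC (c * (m.ω * m.w1)) * (a * E.Y - E.Y * a) := fun {c} hc {a} ha => by
    rw [← iC_bracket m E c ha, mul_sub, ← mul_assoc, ← mul_assoc, ← mul_assoc,
      (iC_comm_Z m E (Stg.gen_comm hc (hW m.w0_mem)) (Stg.gen_comm hc (hW m.w1_mem))).eq]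
  fin_cases s
  · have hq : E.q - 1 ≠ 0 := sub_ne_zero.2 fun h => absurd
      (Nat.le_of_dvd one_pos ((E.q_pow_eq_one_iff 1).1 (by rw [pow_one]; exact h))) (by omega)
    obtain ⟨hc, hc'⟩ := hcoef m.w0_ne m.w0_mem
    refine ⟨v * m.w0⁻¹, (E.q - 1)⁻¹ • E.Y, Submodule.smul_mem _ _ E.Y_mem_E, ?_, fun h => by
      simp at h⟩
    rw [hg hc (Submodule.smul_mem _ _ E.Y_mem_E), hc', smul_mul_assoc, mul_smul_comm, ← smul_sub,
      E.YX_smul, smul_mul_assoc, mul_smul_comm (E.q - 1)⁻¹ E.Y E.Y, sub_self, mul_zero, add_zero]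
    show _ = E.emb.iC (m.ω * v) * (E.X ^ (0 + 1) * E.Y)
    rw [zero_add, pow_one, show E.q • (E.X * E.Y) - E.X * E.Y = (E.q - 1) • (E.X * E.Y) by
      rw [sub_smul, one_smul]]
    simp only [smul_smul, inv_mul_cancel₀ hq, one_smul]
  · have hq : 1 - E.q ^ 2 ≠ 0 := sub_ne_zero.2 fun h => absurd
      (Nat.le_of_dvd two_pos ((E.q_pow_eq_one_iff 2).1 h.symm)) (by omega)
    obtain ⟨hc, hc'⟩ := hcoef m.w1_ne m.w1_mem
    have hX := Submodule.smul_mem E.E (1 - E.q ^ 2)⁻¹ (E.pow_mem_E E.X_mem_E 2)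
    refine ⟨v * m.w1⁻¹, (1 - E.q ^ 2)⁻¹ • E.X ^ 2, hX, ?_, fun _ => ⟨_, rfl⟩⟩
    have h1 := E.Y_pow_X_pow 2 1
    rw [pow_one, mul_one] at h1
    rw [hg hc hX, hc', smul_mul_assoc, mul_smul_comm, ← pow_succ, ← pow_succ', sub_self, mul_zero,
      zero_add, smul_mul_assoc, mul_smul_comm, ← smul_sub, h1]
    show _ = E.emb.iC (m.ω * v) * (E.X ^ (1 + 1) * E.Y)
    rw [show E.X ^ 2 * E.Y - E.q ^ 2 • (E.X ^ 2 * E.Y) = (1 - E.q ^ 2) • (E.X ^ 2 * E.Y) by
      rw [sub_smul, one_smul]]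
    simp only [smul_smul, inv_mul_cancel₀ hq, one_smul]

/-- Trace of a product with a bracket. -/
theorem τ_mul_bracket (N g Z : E.T.C) :
    E.T.τ (N * (g * Z - Z * g)) = E.T.τ ((Z * N - N * Z) * g) := by
  rw [mul_sub, sub_mul, map_sub, map_sub, ← mul_assoc, ← mul_assoc, E.τ_symm (N * g) Z,
    ← mul_assoc]

theorem eq_of_ad {x y : E.T.C} (hx : x ∈ E.T.cent (E.emb.iC o.θ))
    (hy : y ∈ E.T.cent (E.emb.iC o.θ))
    (h : x - y ∈ LinearMap.range (E.T.ad (E.emb.iC o.θ))) : x = y := by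
  exact sub_eq_zero.1 (Submodule.disjoint_def.1 (Stg.cent_disjoint_range_ad (E.emb.iC o.θ)) _
    (Submodule.sub_mem _ hx hy) h)

/-- Changing the test element by a commutator changes a bracket by a commutator. -/
theorem bracket_ad_sub {ν : E.T.C} (hν : ν ∈ E.T.cent (E.emb.iC o.θ)) (Z b : E.T.C) :
    (ν * (Z + E.T.ad (E.emb.iC o.θ) b) - (Z + E.T.ad (E.emb.iC o.θ) b) * ν) - (ν * Z - Z * ν) ∈
      LinearMap.range (E.T.ad (E.emb.iC o.θ)) := by
  refine ⟨ν * b - b * ν, ?_⟩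
  have h := Stg.mem_cent.1 hν
  simp only [Stg.ad_apply, mul_add, add_mul, mul_sub, sub_mul, ← mul_assoc, h]
  simp only [mul_assoc, h]
  abel

theorem comm_Z (hW : o.W ≤ o.S.gen o.θ) {ν b : E.T.C} (hν : ν ∈ E.T.cent (E.emb.iC o.θ))
    (h : ν * (m.Z E + E.T.ad (E.emb.iC o.θ) b) - (m.Z E + E.T.ad (E.emb.iC o.θ) b) * ν ∈
      LinearMap.range (E.T.ad (E.emb.iC o.θ))) :
    ν * m.Z E = m.Z E * ν := by
  refine eq_of_ad E (Stg.mul_mem_cent hν (Z_mem_cent m E hW))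
    (Stg.mul_mem_cent (Z_mem_cent m E hW) hν) ?_
  have h2 := Submodule.sub_mem _ h (bracket_ad_sub E hν (m.Z E) b)
  simpa only [sub_sub_cancel] using h2

theorem scalar_of_comm_Z (B : Base o m) {e : E.T.C} (he : e ∈ E.E)
    (h : e * m.Z E = m.Z E * e) : ∃ r, e = algebraMap E.T.F E.T.C r := by
  have hX : e * E.X - E.X * e = 0 := by
    refine E.eq_zero_of_τ (bracket_mem_E E he E.X_mem_E) fun e' he' => ?_
    have h1 := τ_iC_E_one E (show o.S.τ (B.za * (m.ω * m.w0)) = 1 by rw [Stg.τ_mul_comm]; exact B.za0)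
      (E.mul_mem_E (bracket_mem_E E he E.X_mem_E) he')
    have h0 := congrArg E.T.τ (congrArg (fun u => E.emb.iC B.za * u * e') (sub_eq_zero.2 h))
    simp only [mul_zero, zero_mul, map_zero] at h0
    rw [iC_bracket m E B.za he, add_mul, map_add, mul_assoc, mul_assoc,
      τ_iC_E_zero E (show o.S.τ (B.za * (m.ω * m.w1)) = 0 by rw [Stg.τ_mul_comm]; exact B.za1)
        (E.mul_mem_E (bracket_mem_E E he E.Y_mem_E) he'), add_zero] at h0
    rw [h0, mul_zero] at h1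
    rw [E.τ_symm, ← h1]
  have hY : e * E.Y - E.Y * e = 0 := by
    have h0 := iC_bracket m E 1 he
    rw [sub_eq_zero.2 h, mul_zero, hX, mul_zero, zero_add, one_mul] at h0
    exact (mul_eq_zero.1 h0.symm).resolve_left
      ((map_ne_zero_iff _ E.emb.iC.injective).2 (mul_ne_zero m.ω_ne m.w1_ne))
  have hc : ∀ y, e * y = y * e := by
    intro y
    have hy : y ∈ (⊤ : Submodule E.T.F E.T.C) := Submodule.mem_top
    rw [← E.span] at hy
    induction hy using Submodule.span_induction with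
    | mem y hy =>
      obtain ⟨⟨c, i, j⟩, rfl⟩ := hy
      exact (((show Commute e (E.emb.iC c) from (E.mem_E_iff e).1 he c).mul_right
        ((show Commute e E.X from sub_eq_zero.1 hX).pow_right _)).mul_right
        ((show Commute e E.Y from sub_eq_zero.1 hY).pow_right _)).eq
    | zero => simp
    | add y z _ _ hy hz => rw [mul_add, add_mul, hy, hz]
    | smul r y _ hy => rw [mul_smul_comm, smul_mul_assoc, hy]
  obtain ⟨r, hr⟩ := E.T.central e hc
  exact ⟨r, hr.symm⟩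

theorem lam_mem_KZ (hW : o.W ≤ o.S.gen o.θ) {l : o.S.C} (hl : l ∈ o.Kc) :
    E.emb.iC l ∈ m.KZ E := by
  have hc := Kc_cent hl
  refine ⟨⟨iC_mem_cent E hc, Stg.mem_cent.2 ?_⟩, ?_⟩
  · exact (iC_comm_Z m E (Stg.commute_cent (hW m.w0_mem) hc).symm
      (Stg.commute_cent (hW m.w1_mem) hc).symm).eq.symm
  · rw [SetLike.mem_coe, Stg.mem_orth_span]
    rintro _ ⟨w, hw, e, he, rfl⟩
    rw [← mul_assoc, ← map_mul]
    exact τ_iC_E_zero E (τ_Kc_W hl hw) he

/-- Products of the tangent space and the monomial span are derivatives modulo commutators. -/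
theorem exists_dir {w : o.S.C} (hw : w ∈ o.W) {e : E.T.C} (he : e ∈ E.E) :
    ∃ η : Fin o.K → E.T.C, (∀ i, η i ∈ E.E) ∧
      ∑ i, E.emb.iC (o.f [i]) * η i - E.emb.iC w * e ∈
        LinearMap.range (E.T.ad (E.emb.iC o.θ)) := by
  obtain ⟨_, ⟨x, rfl⟩, _, ⟨y, rfl⟩, hxy⟩ := Submodule.mem_sup.1 (Submodule.mem_inf.1 hw).1
  refine ⟨fun i => E.emb.iF (x i) • e, fun i => Submodule.smul_mem _ _ he,
    -(E.emb.iC y * e), ?_⟩
  have h1 : E.emb.iC (o.Df x) * e = ∑ i, E.emb.iC (o.f [i]) * (E.emb.iF (x i) • e) := by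
    simp only [Obj.Df, LinearMap.coe_mk, AddHom.coe_mk, map_sum, Finset.sum_mul, E.iC_smul,
      smul_mul_assoc, mul_smul_comm]
  rw [← hxy, map_add, add_mul, h1, map_neg, Stg.ad_apply, Stg.ad_apply, map_sub, map_mul, map_mul,
    sub_mul]
  simp only [mul_assoc, (E.mem_E_iff e).1 he o.θ]
  abel

/-- A gauge direction is invisible for the leading functional. -/
theorem τ_gauge (hW : o.W ≤ o.S.gen o.θ) {v l : o.S.C} (hv : m.ω * v ∈ o.W) (hl : l ∈ o.Kc)
    {h k e e' : E.T.C} (hk : k ∈ E.E) (he : e ∈ E.E) (he' : e' ∈ E.E)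
    (hh : h * m.Z E - m.Z E * h = E.emb.iC (m.ω * v) * k - (e * m.Z E - m.Z E * e)) :
    E.T.τ (E.emb.iC l * h * (e' * m.Z E - m.Z E * e')) = 0 := by
  have hc := Kc_cent hl
  have hZ := iC_comm_Z m E (Stg.commute_cent (hW m.w0_mem) hc).symm
    (Stg.commute_cent (hW m.w1_mem) hc).symm
  rw [τ_mul_bracket,
    show m.Z E * (E.emb.iC l * h) - E.emb.iC l * h * m.Z E =
      -(E.emb.iC (l * (m.ω * v)) * k - E.emb.iC l * (e * m.Z E - m.Z E * e)) by
        rw [← mul_assoc, ← hZ.eq, mul_assoc, mul_assoc, ← mul_sub, map_mul, mul_assoc, ← mul_sub,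
          ← hh, ← mul_neg, neg_sub],
    neg_mul, map_neg, sub_mul, map_sub, mul_assoc,
    τ_iC_E_zero E (τ_Kc_W hl hv) (E.mul_mem_E hk he'),
    τ_bracket_zero m E (τ_Kc_W hl m.w0_mem) (τ_Kc_W hl m.w1_mem) he he', sub_zero, neg_zero]

/-- Both directions are brackets with the test element. -/
theorem exists_g (hW : o.W ≤ o.S.gen o.θ) {v : o.S.C} (hv : m.ω * v ∈ o.W) (hM : 3 ≤ M) (s : Fin 2) :
    ∃ g : E.T.C, g * m.Z E - m.Z E * g = E.emb.iC (m.ω * v) * mon E s := by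
  obtain ⟨c, a, -, hg, -⟩ := exists_g_mul m E hW hv hM s
  exact ⟨_, hg⟩

/-- The mixed leading value vanishes. -/
theorem τ_pair01 (hW : o.W ≤ o.S.gen o.θ) {v l : o.S.C} (hv : m.ω * v ∈ o.W) (hl : l ∈ o.Kc)
    (hM : 5 ≤ M) {h e : E.T.C} (he : e ∈ E.E)
    (hh : h * m.Z E - m.Z E * h = E.emb.iC (m.ω * v) * mon E 0 - (e * m.Z E - m.Z E * e)) :
    E.T.τ (E.emb.iC l * h * (E.emb.iC (m.ω * v) * mon E 1)) = 0 := by
  have hc := Kc_cent hl
  have hZ := iC_comm_Z m E (Stg.commute_cent (hW m.w0_mem) hc).symm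
    (Stg.commute_cent (hW m.w1_mem) hc).symm
  obtain ⟨c, a, -, hg, ha⟩ := exists_g_mul m E hW hv (by omega) 1
  obtain ⟨k, rfl⟩ := ha rfl
  set g := E.emb.iC c * k • E.X ^ 2
  have h1 : E.T.τ (E.emb.iC l * (E.emb.iC (m.ω * v) * mon E 0) * g) = 0 := by
    rw [← mul_assoc (E.emb.iC l), ← map_mul, iC_mul_iC E _ _ (mon_mem E 0), mul_smul_comm,
      mul_smul_comm, map_smul]
    have h4 := E.mul_monomial 1 1 2 0
    simp only [pow_one, pow_zero, mul_one] at h4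
    simp only [mon, Fin.val_zero, zero_add, pow_one]
    rw [h4, mul_smul_comm, map_smul]
    have h5 := E.τ_monomial_zero (l * (m.ω * v) * c) ⟨3, by omega⟩ ⟨1, by omega⟩ (Or.inr one_ne_zero)
    simp only [pow_one] at h5
    rw [show (1 + 2 : ℕ) = 3 from rfl, show (1 + 0 : ℕ) = 1 from rfl, pow_one, h5, smul_zero,
      smul_zero]
  have h2 : E.T.τ (E.emb.iC l * (e * m.Z E - m.Z E * e) * g) = 0 := by
    have h3 : E.emb.iC l * (e * m.Z E - m.Z E * e) =
        -(m.Z E * (E.emb.iC l * e) - E.emb.iC l * e * m.Z E) := by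
      rw [neg_sub, mul_sub, ← mul_assoc, ← mul_assoc, ← mul_assoc, hZ.eq]
    rw [h3, neg_mul, map_neg, ← τ_mul_bracket, hg, neg_eq_zero, mul_assoc,
      ← mul_assoc e, (E.mem_E_iff e).1 he, mul_assoc (E.emb.iC _) e, ← mul_assoc (E.emb.iC l),
      ← map_mul, τ_iC_E_zero E (τ_Kc_W hl hv) (E.mul_mem_E he (mon_mem E 1))]
  rw [← hg, τ_mul_bracket,
    show m.Z E * (E.emb.iC l * h) - E.emb.iC l * h * m.Z E =
      -(E.emb.iC l * (E.emb.iC (m.ω * v) * mon E 0) - E.emb.iC l * (e * m.Z E - m.Z E * e)) by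
        rw [← mul_assoc, ← hZ.eq, mul_assoc, mul_assoc, ← mul_sub, ← mul_sub,
          ← hh, ← mul_neg, neg_sub],
    neg_mul, map_neg, sub_mul, map_sub, h1, h2, sub_zero, neg_zero]

/-- Independence of the leading functionals. -/
theorem indep_top (hW : o.W ≤ o.S.gen o.θ) (B : Base o m) (hM : 5 ≤ M) {σ : Type} [Fintype σ]
    (p : σ → Fin 2) (hp : Function.Injective p) (h e : σ → E.T.C) (he : ∀ s, e s ∈ E.E)
    (hh : ∀ s, h s * m.Z E - m.Z E * h s =
      E.emb.iC (m.ω * B.v) * mon E (p s) - (e s * m.Z E - m.Z E * e s))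
    (γ : σ → Fin (o.d0 - o.r) → E.T.F) {z : E.T.C} (hz : z ∈ centZ m E)
    (hN : ∑ s, ∑ i, γ s i • (E.emb.iC (B.lam i) * h s) + z ∈ E.T.orth (WE E)) :
    γ = 0 := by
  classical
  funext t j
  set x := E.emb.iC (B.cc j) * (mon E (p t))⁻¹ with hx
  have hm' := E.inv_mem_E (mon_mem E (p t))
  have hw0 := Stg.commute_cent (hW m.w0_mem) (B.cc_cent j)
  have hw1 := Stg.commute_cent (hW m.w1_mem) (B.cc_cent j)
  have hxWE : x * m.Z E - m.Z E * x ∈ WE E := by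
    rw [hx, ← mul_assoc (m.Z E), ← (iC_comm_Z m E hw0.symm hw1.symm).eq, mul_assoc, mul_assoc,
      ← mul_sub, iC_bracket m E _ hm']
    exact Submodule.add_mem _
      (Submodule.subset_span ⟨_, by rw [← hw0]; exact B.cc0 j, _,
        bracket_mem_E E hm' E.X_mem_E, rfl⟩)
      (Submodule.subset_span ⟨_, by rw [← hw1]; exact B.cc1 j, _,
        bracket_mem_E E hm' E.Y_mem_E, rfl⟩)
  have h0 := hN _ hxWE
  rw [τ_mul_bracket] at h0
  have hlZ : ∀ i, Commute (E.emb.iC (B.lam i)) (m.Z E) := fun i => iC_comm_Z m E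
    (Stg.commute_cent (hW m.w0_mem) (Kc_cent (B.lam_mem i))).symm
    (Stg.commute_cent (hW m.w1_mem) (Kc_cent (B.lam_mem i))).symm
  have hterm : ∀ s i, (o.S.dim : E.T.F) *
      E.T.τ ((m.Z E * (E.emb.iC (B.lam i) * h s) - E.emb.iC (B.lam i) * h s * m.Z E) * x) =
        if i = j ∧ s = t then -(E.T.dim : E.T.F) else 0 := by
    intro s i
    have hb : E.T.τ (E.emb.iC (B.lam i) * (e s * m.Z E - m.Z E * e s) * x) = 0 := by
      rw [hx, iC_bracket m E _ (he s), add_mul, iC_mul_iC E _ _ (bracket_mem_E E (he s) E.X_mem_E),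
        iC_mul_iC E _ _ (bracket_mem_E E (he s) E.Y_mem_E), map_add,
        τ_iC_E_zero E _ (E.mul_mem_E (bracket_mem_E E (he s) E.X_mem_E) hm'),
        τ_iC_E_zero E _ (E.mul_mem_E (bracket_mem_E E (he s) E.Y_mem_E) hm'), add_zero]
      · rw [mul_assoc]; exact τ_Kc_W (B.lam_mem i) (B.cc1 j)
      · rw [mul_assoc]; exact τ_Kc_W (B.lam_mem i) (B.cc0 j)
    have hmain : (o.S.dim : E.T.F) *
        E.T.τ (E.emb.iC (B.lam i) * (E.emb.iC (m.ω * B.v) * mon E (p s)) * x) =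
          if i = j ∧ s = t then (E.T.dim : E.T.F) else 0 := by
      rw [hx, ← mul_assoc (E.emb.iC (B.lam i)), ← map_mul, iC_mul_iC E _ _ (mon_mem E (p s)),
        E.τ_iC_mul _ (E.mul_mem_E (mon_mem E (p s)) hm'), τ_mon_inv E (by omega),
        mul_assoc (B.lam i), B.dual i j]
      by_cases hi : i = j <;> by_cases hs : s = t <;>
        simp [hi, hs, hp.ne]
    rw [show m.Z E * (E.emb.iC (B.lam i) * h s) - E.emb.iC (B.lam i) * h s * m.Z E =
      -(E.emb.iC (B.lam i) * (E.emb.iC (m.ω * B.v) * mon E (p s)) -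
        E.emb.iC (B.lam i) * (e s * m.Z E - m.Z E * e s)) by
        rw [← mul_assoc, ← (hlZ i).eq, mul_assoc, mul_assoc, ← mul_sub, ← mul_sub,
          ← hh, ← mul_neg, neg_sub],
      neg_mul, map_neg, sub_mul, map_sub, hb, sub_zero, mul_neg, hmain]
    split <;> simp
  have hz' : m.Z E * z - z * m.Z E = 0 := sub_eq_zero.2 (Stg.mem_cent.1 hz.2)
  have hsplit : m.Z E * (∑ s, ∑ i, γ s i • (E.emb.iC (B.lam i) * h s) + z) -
      (∑ s, ∑ i, γ s i • (E.emb.iC (B.lam i) * h s) + z) * m.Z E =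
      ∑ s, ∑ i, γ s i • (m.Z E * (E.emb.iC (B.lam i) * h s) -
        E.emb.iC (B.lam i) * h s * m.Z E) := by
    simp only [mul_add, add_mul, Finset.mul_sum, Finset.sum_mul, mul_smul_comm, smul_mul_assoc,
      smul_sub, Finset.sum_sub_distrib]
    rw [add_sub_add_comm, hz', add_zero]
  rw [hsplit] at h0
  have h1 := congrArg ((o.S.dim : E.T.F) * ·) h0
  simp only [Finset.sum_mul, map_sum, smul_mul_assoc, map_smul, smul_eq_mul, mul_zero,
    Finset.mul_sum, mul_left_comm (o.S.dim : E.T.F), hterm, mul_ite, ite_and] at h1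
  simpa [E.T_dim_ne] using h1

/-- The two leading coefficients are independent. -/
theorem indep_lead (hW : o.W ≤ o.S.gen o.θ) (B : Base o m) (hM : 5 ≤ M) (e : Fin 2 → E.T.C)
    (he : ∀ s, e s ∈ E.E) (γ : Fin 2 → E.T.F)
    (h : ∑ s, γ s • (E.emb.iC (m.ω * B.v) * mon E s - (e s * m.Z E - m.Z E * e s)) = 0) :
    γ = 0 := by
  funext t
  have hm' := E.inv_mem_E (mon_mem E t)
  have h0 := congrArg (fun u => (o.S.dim : E.T.F) * E.T.τ (E.emb.iC B.zv * u * (mon E t)⁻¹)) h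
  have hterm : ∀ s, (o.S.dim : E.T.F) * E.T.τ (E.emb.iC B.zv *
      (E.emb.iC (m.ω * B.v) * mon E s - (e s * m.Z E - m.Z E * e s)) * (mon E t)⁻¹) =
        if s = t then (E.T.dim : E.T.F) else 0 := by
    intro s
    rw [mul_sub, sub_mul, map_sub,
      τ_bracket_zero m E (by rw [Stg.τ_mul_comm]; exact B.zv0)
        (by rw [Stg.τ_mul_comm]; exact B.zv1) (he s) hm', sub_zero, ← mul_assoc, ← map_mul,
      mul_assoc,
      τ_iC_E_one E (by rw [Stg.τ_mul_comm]; exact B.zvv) (E.mul_mem_E (mon_mem E s) hm'),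
      τ_mon_inv E (by omega)]
  simp only [mul_zero, zero_mul, map_zero, Finset.mul_sum, Finset.sum_mul, map_sum, mul_smul_comm,
    smul_mul_assoc, map_smul, smul_eq_mul] at h0
  simp only [mul_left_comm (o.S.dim : E.T.F), hterm] at h0
  simpa [E.T_dim_ne] using h0

theorem finrank_centZ_le (hW : o.W ≤ o.S.gen o.θ) (hM : 0 < M) :
    finrank E.T.F (centZ m E) ≤ M * finrank o.S.F (o.S.cent o.θ) := by
  let o0 : Obj := ⟨o.S, 0, fun _ => 0, NS.const o.θ⟩
  have hθ : o0.θ = o.θ := rfl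
  have hW0 : o0.W = ⊥ := by
    rw [Submodule.eq_bot_iff]
    rintro z ⟨hz, hzc⟩
    obtain ⟨_, ⟨x, rfl⟩, y, hy, rfl⟩ := Submodule.mem_sup.1 hz
    have hx : o0.Df x = 0 := by
      simp only [Obj.Df, LinearMap.coe_mk, AddHom.coe_mk]
      exact Finset.sum_eq_zero fun i _ => Fin.elim0 i
    rw [hx, zero_add] at hzc ⊢
    exact Submodule.disjoint_def.1 (Stg.cent_disjoint_range_ad o0.θ) y hzc hy
  have h := Rank.finrank_add_layers (o := o0) hM E (a := m.ω * m.w0) (b := m.ω * m.w1)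
    (hW m.w0_mem) (hW m.w1_mem) (mul_ne_zero m.ω_ne m.w1_ne) (hW0 ▸ bot_le)
  have hle : centZ m E ≤ Rank.KZgen (o := o0) E (m.ω * m.w0) (m.ω * m.w1) := by
    intro z hz
    rw [centZ, Z_eq] at hz
    refine ⟨hz, Stg.mem_orth_span.2 ?_⟩
    rintro _ ⟨w, hw, e, -, rfl⟩
    rw [hW0, Submodule.mem_bot] at hw
    rw [hw, map_zero, zero_mul, mul_zero, map_zero]
  exact (Submodule.finrank_mono hle).trans ((Nat.le_add_right _ _).trans h)

end Fin2

end P199K
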