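import Vale.Agent.P199.Kurosh.Final.Base
import Vale.Agent.P199.Kurosh.Final.Rec
import Vale.Agent.P199.Kurosh.Final.LSeries
import Vale.Agent.P199.Kurosh.Final.Lift
import Vale.Agent.P199.Kurosh.Final.SymAux

/-! The child of a minimal state along an approaching point: the second coefficient of its base value,
its dimensions, the lead space of its centraliser and lifts. -/

open Module Submodule Finset

namespace P199K

namespace Fin2

/-- The objects of the final step. -/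
structure Setup where
  root : Obj
  o : Obj
  ho : Obj.Minimal root o
  hW : o.W ≤ o.S.gen o.θ
  m : Model o
  B : Base o m
  M : ℕ
  hM : 5 ≤ M
  E : Sym o.S M
  P : Point E o.K
  A : Approach m E P
  hn : A.n = 1
  G : Growth o E P
  ho' : Obj.Minimal root G.child
  hW' : G.child.W ≤ G.child.S.gen G.child.θ
  lift : ∀ z ∈ m.KZ E, ∃ z' : LaurentSeries E.T.C,
    (z' : G.child.S.C) ∈ G.child.Kc ∧ OrdGE 0 z' ∧ z'.coeff 0 = z

namespace Setup

variable (D : Setup)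

/-- The child. -/
noncomputable abbrev ch : Obj := ⟨D.E.T.laurent, D.G.K, D.G.y, D.G.f⟩

/-- The corank. -/
noncomputable abbrev cor : ℕ := D.o.d0 - D.o.r

/-- The base value in the symbol extension. -/
noncomputable abbrev θ0 : D.E.T.C := D.E.emb.iC D.o.θ

/-- The base value of the child, as a Laurent series. -/
noncomputable def θp : LaurentSeries D.E.T.C := D.P.eval D.o.f

/-- Its second coefficient. -/
noncomputable abbrev θ1 : D.E.T.C := D.θp.coeff 1

/-- A series as an element of the Laurent stage. -/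
noncomputable abbrev up (x : LaurentSeries D.E.T.C) : D.E.T.laurent.C := x

/-- An element of the Laurent stage as a series. -/
noncomputable abbrev down (x : D.E.T.laurent.C) : LaurentSeries D.E.T.C := x

/-- A scalar of the Laurent stage as a series. -/
noncomputable abbrev downF (x : D.E.T.laurent.F) : LaurentSeries D.E.T.F := x

theorem ch_min : Obj.Minimal D.root D.ch := D.ho'

theorem ch_W : D.ch.W ≤ D.ch.S.gen D.ch.θ := D.hW'

theorem ch_θ : D.ch.θ = (D.θp : D.E.T.laurent.C) := D.G.base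

theorem θp_ordGE : OrdGE 0 D.θp := D.P.eval_ordGE D.o.f

theorem θp_zero : D.θp.coeff 0 = D.θ0 := D.P.eval_coeff_zero D.o.f

theorem θp_one : ∃ b, D.θ1 = D.m.Z D.E + D.E.T.ad D.θ0 b := by
  obtain ⟨⟨n, _, h, h_int, h_lead, a, b, a_eq, value⟩, hn1⟩ :
      ∃ A : Approach D.m D.E D.P, A.n = 1 := ⟨D.A, D.hn⟩
  obtain rfl : n = 1 := hn1
  have hs : OrdGE 0 (D.E.ι D.o.θ + HahnSeries.single ((1 : ℕ) : ℤ) a) :=
    OrdGE.add (OrdGE.iota _) (OrdGE.single (by norm_num) a)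
  have e := value 1 (by norm_num)
  have h1 := coeff_mul_next D.θp_ordGE h_int
  have h2 := coeff_mul_next h_int hs
  rw [add_zero, zero_add] at h1 h2
  rw [HahnSeries.coeff_sub, sub_eq_zero] at e
  change (D.θp * h).coeff 1 = _ at e
  rw [h1, h2, h_lead, D.θp_zero, mul_one, one_mul] at e
  have hc0 : (D.E.ι D.o.θ + HahnSeries.single ((1 : ℕ) : ℤ) a).coeff 0 = D.θ0 := by
    simp [Sym.ι]
  have hc1 : (D.E.ι D.o.θ + HahnSeries.single ((1 : ℕ) : ℤ) a).coeff 1 = a := by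
    simp [Sym.ι, HahnSeries.C_apply]
  rw [hc0, hc1, a_eq] at e
  refine ⟨b - h.coeff 1, ?_⟩
  show D.θp.coeff 1 = _
  rw [map_sub, Stg.ad_apply, Stg.ad_apply, eq_sub_of_add_eq' e]
  abel

theorem Z_cent : D.m.Z D.E ∈ D.E.T.cent D.θ0 := Z_mem_cent D.m D.E D.hW

theorem θ1_bracket {ν : D.E.T.C} (hν : ν ∈ D.E.T.cent D.θ0) :
    (ν * D.θ1 - D.θ1 * ν) - (ν * D.m.Z D.E - D.m.Z D.E * ν) ∈ LinearMap.range (D.E.T.ad D.θ0) := by
  obtain ⟨b, hb⟩ := D.θp_one
  rw [hb]
  exact bracket_ad_sub D.E hν _ b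

theorem mem_centZ_of {ν : D.E.T.C} (hν : ν ∈ D.E.T.cent D.θ0)
    (h : ν * D.θ1 - D.θ1 * ν ∈ LinearMap.range (D.E.T.ad D.θ0)) : ν ∈ centZ D.m D.E := by
  obtain ⟨b, hb⟩ := D.θp_one
  rw [hb] at h
  exact ⟨hν, Stg.mem_cent.2 (comm_Z D.m D.E D.hW hν h).symm⟩

theorem scalar_of_θ1 : ∀ x ∈ D.E.E, x * D.θ1 = D.θ1 * x →
    ∃ r, x = algebraMap D.E.T.F D.E.T.C r := fun x hx h =>
  scalar_of_comm_Z D.m D.E D.B hx
    (Stg.mem_cent.1 (D.mem_centZ_of (E_le_cent D.E hx) (by rw [h, sub_self]; exact zero_mem _)).2).symm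

/-! ### Dimensions -/

theorem M_pos : 0 < D.M := by have := D.hM; omega

theorem ch_dim : D.ch.S.dim = D.o.S.dim * D.M ^ 2 := (Stg.laurent_dim D.E.T).trans D.E.dim_eq

theorem ch_d : D.ch.d = D.o.d * D.M := by
  have h1 := D.ho.deg D.ch D.ch_min.state
  have h2 := D.ch_min.deg D.o D.ho.state
  rw [D.ch_dim] at h1 h2
  have h3 := le_antisymm h1 h2
  refine Nat.pow_left_injective two_ne_zero ?_
  show D.ch.d ^ 2 = (D.o.d * D.M) ^ 2
  exact Nat.eq_of_mul_eq_mul_right D.o.S.dim_pos (by rw [h3, mul_pow]; ring)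

theorem d_eq : D.ch.d ^ 2 * D.o.S.dim = D.o.d ^ 2 * D.ch.S.dim := by
  rw [D.ch_d, D.ch_dim]; ring

theorem ratio_eq : D.ch.d0 * D.o.d = D.o.d0 * D.ch.d :=
  le_antisymm (D.ho.ratio D.ch D.ch_min.state D.d_eq)
    (D.ch_min.ratio D.o D.ho.state D.d_eq.symm)

theorem ch_cor : D.ch.d0 - D.ch.r = D.cor :=
  le_antisymm (D.ch_min.corank D.o D.ho.state D.d_eq.symm D.ratio_eq.symm D.ho.small)
    (D.ho.corank D.ch D.ch_min.state D.d_eq D.ratio_eq D.ch_min.small)

/-- The centraliser of the base value of the child. -/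
noncomputable def centp : Submodule D.E.T.laurent.F D.E.T.laurent.C := D.E.T.laurent.cent D.θp

theorem mem_centp {x : LaurentSeries D.E.T.C} :
    (x : D.E.T.laurent.C) ∈ D.centp ↔ D.θp * x = x * D.θp := Stg.mem_cent

theorem finrank_centp :
    finrank D.E.T.laurent.F D.centp = D.M * finrank D.o.S.F (D.o.S.cent D.o.θ) := by
  have h1 := Stg.finrank_gen_mul_finrank_cent (S := D.o.S) D.o.θ
  have h2 := Stg.finrank_gen_mul_finrank_cent (S := D.E.T.laurent) D.θp
  have h3 := D.ch_d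
  have h4 := D.ch_dim
  rw [Obj.d, D.ch_θ] at h3
  change finrank D.E.T.laurent.F (D.E.T.laurent.gen D.θp) = _ at h3
  change D.E.T.laurent.dim = _ at h4
  rw [h3, h4, ← h1] at h2
  show finrank D.E.T.laurent.F (D.E.T.laurent.cent D.θp) = _
  refine Nat.eq_of_mul_eq_mul_left (Nat.mul_pos (Stg.finrank_gen_pos D.o.θ) D.M_pos) (h2.trans ?_)
  ring

theorem lead_centp_le : D.E.T.leadSp D.centp ≤ centZ D.m D.E := by
  rintro _ ⟨x, hx, hx0, rfl⟩
  have e : x * D.θp - D.θp * x = 0 := sub_eq_zero.2 (D.mem_centp.1 hx).symm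
  have h0 := coeff_bracket hx0 D.θp_ordGE
  have h1 := coeff_bracket_next hx0 D.θp_ordGE
  rw [e, HahnSeries.coeff_zero, D.θp_zero] at h0
  rw [e, HahnSeries.coeff_zero, D.θp_zero, zero_add] at h1
  refine D.mem_centZ_of (Stg.mem_cent.2 (sub_eq_zero.1 h0.symm).symm) ⟨x.coeff 1, ?_⟩
  rw [Stg.ad_apply, eq_neg_of_add_eq_zero_right h1.symm]
  abel

theorem lead_centp : D.E.T.leadSp D.centp = centZ D.m D.E := by
  refine Submodule.eq_of_le_of_finrank_le D.lead_centp_le ?_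
  rw [Stg.finrank_leadSp_laurent, D.finrank_centp]
  exact finrank_centZ_le D.m D.E D.hW D.M_pos

/-- A conjugator of order at least minus one. -/
theorem exists_conj {c : Fin D.G.K → LaurentSeries D.E.T.F} (hc : ∀ a, OrdGE 0 (c a))
    (h : ∃ H : LaurentSeries D.E.T.C, D.θp * H - H * D.θp = - D.G.linPart c) :
    ∃ H, OrdGE (-1) H ∧ D.G.linPart c + (D.θp * H - H * D.θp) = 0 := by
  obtain ⟨H, hH⟩ := h
  obtain ⟨k, hk⟩ := exists_ordGE H
  have hL := D.G.linPart_ordGE hc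
  let Q : ℤ → LaurentSeries D.E.T.C → Prop := fun n H =>
    OrdGE n H ∧ D.θp * H - H * D.θp = - D.G.linPart c
  have hstep : ∀ n, n < -1 → ∀ Y, Q n Y → ∃ Y', Q (n + 1) Y' := by
    intro n hn Y hY
    obtain ⟨hY, e⟩ := hY
    have e' : Y * D.θp - D.θp * Y = D.G.linPart c := by
      rw [← neg_sub, e, neg_neg]
    have h0 := coeff_bracket hY D.θp_ordGE
    have h1 := coeff_bracket_next hY D.θp_ordGE
    rw [e', hL n (by omega), D.θp_zero] at h0
    rw [e', hL (n + 1) (by omega), D.θp_zero] at h1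
    have hcz : Y.coeff n ∈ centZ D.m D.E := by
      refine D.mem_centZ_of (Stg.mem_cent.2 (sub_eq_zero.1 h0.symm).symm) ⟨Y.coeff (n + 1), ?_⟩
      rw [Stg.ad_apply, eq_neg_of_add_eq_zero_right h1.symm]
      abel
    rw [← D.lead_centp] at hcz
    obtain ⟨z, hz, hz0, hzc⟩ := hcz
    obtain ⟨hs, hs'⟩ := D.E.T.smul_ordGE (ordGE_single n (1 : D.E.T.F)) hz0
    rw [add_zero] at hs hs'
    rw [HahnSeries.coeff_single_same, one_smul, hzc] at hs'
    have hzθ := D.mem_centp.1 (D.centp.smul_mem (HahnSeries.single n (1 : D.E.T.F)) hz)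
    refine ⟨Y - (HahnSeries.single n (1 : D.E.T.F) : LaurentSeries D.E.T.F) • z,
      ordGE_succ (hY.sub hs) (by rw [HahnSeries.coeff_sub, hs', sub_self]), ?_⟩
    rw [mul_sub, sub_mul, ← e, sub_sub_sub_comm, sub_eq_self]
    exact sub_eq_zero.2 hzθ
  obtain ⟨H', hH'⟩ := climb Q (B := -1) (n := min k (-1)) (x := H)
    ⟨OrdGE.mono (min_le_left _ _) hk, hH⟩ hstep (-1) (min_le_right _ _) le_rfl
  exact ⟨H', hH'.1, by rw [hH'.2, add_neg_cancel]⟩

/-- Lifts of the cokernel representatives and a complement inside the centraliser. -/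
structure Data (D : Setup) where
  mu : Fin D.cor → LaurentSeries D.E.T.C
  mu_mem : ∀ i, (mu i : D.ch.S.C) ∈ D.ch.Kc
  mu_int : ∀ i, OrdGE 0 (mu i)
  mu_lead : ∀ i, (mu i).coeff 0 = D.E.emb.iC (D.B.lam i)
  nz : ℕ
  zz : Fin nz → D.E.T.C
  zp : Fin nz → LaurentSeries D.E.T.C
  zz_mem : ∀ j, zz j ∈ centZ D.m D.E
  zp_mem : ∀ j, (zp j : D.E.T.laurent.C) ∈ D.centp
  zp_int : ∀ j, OrdGE 0 (zp j)
  zp_lead : ∀ j, (zp j).coeff 0 = zz j
  zz_indep : ∀ δ : Fin nz → D.E.T.F, ∑ j, δ j • zz j ∈ D.E.T.orth (WE D.E) → δ = 0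
  span_le : D.centp ≤ D.ch.Kc ⊔ span D.E.T.laurent.F (Set.range fun j => (zp j : D.E.T.laurent.C))

theorem Kc_le_centp : D.ch.Kc ≤ D.centp := by
  rw [centp, ← D.ch_θ]
  show D.ch.Kc ≤ D.ch.S.cent D.ch.θ
  rw [← Stg.orth_range_ad]
  exact Stg.orth_anti le_sup_right

theorem exists_data : Nonempty D.Data := by
  classical
  choose mu hmu1 hmu2 hmu3 using fun i => D.lift _ (lam_mem_KZ D.m D.E D.hW (D.B.lam_mem i))
  obtain ⟨Q, hQ⟩ := Submodule.exists_isCompl (D.m.KZ D.E)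
  have hle : D.m.KZ D.E ≤ centZ D.m D.E := inf_le_left
  let D0 := Q ⊓ centZ D.m D.E
  have hsup : D.m.KZ D.E ⊔ D0 = centZ D.m D.E := by
    rw [← sup_inf_assoc_of_le Q hle, hQ.sup_eq_top, top_inf_eq]
  let b := Module.finBasis D.E.T.F D0
  have hb : ∀ j, ((b j : D0) : D.E.T.C) ∈ D.E.T.leadSp D.centp := fun j => by
    rw [D.lead_centp]; exact (b j).2.2
  choose zp hzp1 hzp2 hzp3 using hb
  let zc : Fin (finrank D.E.T.F D0) → D.E.T.laurent.C := fun j => zp j
  let U : Submodule D.E.T.laurent.F D.E.T.laurent.C :=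
    D.ch.Kc ⊔ span D.E.T.laurent.F (Set.range zc)
  have hU : U ≤ D.centp := sup_le D.Kc_le_centp (span_le.2 (Set.range_subset_iff.2 fun j => hzp1 j))
  have hU1 : D.ch.Kc ≤ U := le_sup_left
  have hU2 : ∀ j, (zc j) ∈ U := fun j => Submodule.mem_sup_right (subset_span ⟨j, rfl⟩)
  have hlead : centZ D.m D.E ≤ D.E.T.leadSp U := by
    rw [← hsup]
    refine sup_le (fun z hz => ?_) ?_
    · obtain ⟨z', h1, h2, h3⟩ := D.lift z hz
      exact ⟨z', hU1 h1, h2, h3⟩
    · intro x hx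
      have : (∑ j, b.repr ⟨x, hx⟩ j • ((b j : D0) : D.E.T.C)) = x := by
        have h := congrArg Subtype.val (b.sum_repr ⟨x, hx⟩)
        simpa only [Submodule.coe_sum, Submodule.coe_smul] using h
      rw [← this]
      exact Submodule.sum_mem _ fun j _ => Submodule.smul_mem _ _
        ⟨zp j, hU2 j, hzp2 j, hzp3 j⟩
  have hUeq : U = D.centp := by
    refine Submodule.eq_of_le_of_finrank_le hU ?_
    rw [← Stg.finrank_leadSp_laurent, ← Stg.finrank_leadSp_laurent, D.lead_centp]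
    exact Submodule.finrank_mono hlead
  refine ⟨{ mu := mu, mu_mem := hmu1, mu_int := hmu2, mu_lead := hmu3
            nz := _, zz := fun j => ((b j : D0) : D.E.T.C), zp := zp, zz_mem := fun j => (b j).2.2
            zp_mem := hzp1, zp_int := hzp2, zp_lead := hzp3
            zz_indep := fun δ hδ => ?_, span_le := hUeq.ge }⟩
  have h1 : (∑ j, δ j • b j : D0).1 ∈ D.m.KZ D.E ⊓ Q := by
    refine ⟨?_, (∑ j, δ j • b j : D0).2.1⟩
    rw [KZ_eq_inf]
    refine ⟨(∑ j, δ j • b j : D0).2.2, ?_⟩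
    simpa [Submodule.coe_sum] using hδ
  rw [hQ.inf_eq_bot, Submodule.mem_bot] at h1
  have h2 : (∑ j, δ j • b j : D0) = 0 := Subtype.ext h1
  have hli := b.linearIndependent
  rw [Fintype.linearIndependent_iffₛ] at hli
  exact funext fun j => hli δ 0 (by simpa using h2) j

end Setup

end Fin2

end P199K
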