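import Vale.Agent.P199.Kurosh.Final.Setup

/-! The linear functionals of the pairing on the child and the solver for them. -/

open Module Submodule Finset

namespace P199K

namespace Fin2

namespace Setup

variable (D : Setup)

/-- An integral combination of letters whose linear part starts with a given element, up to gauge. -/
def LeadIs (c : Fin D.G.K → LaurentSeries D.E.T.F) (x : D.E.T.C) : Prop :=
  (∀ a, OrdGE 0 (c a)) ∧ ∃ e ∈ D.E.E,
    (D.G.linPart c).coeff 0 - (x - (e * D.θ1 - D.θ1 * e)) ∈ LinearMap.range (D.E.T.ad D.θ0)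

/-- A kernel pair starting in one of the two directions. -/
structure Side (D : Setup) (s : Fin 2) where
  c : Fin D.G.K → LaurentSeries D.E.T.F
  H : LaurentSeries D.E.T.C
  H_ord : OrdGE (-1) H
  eq : D.G.linPart c + (D.θp * H - H * D.θp) = 0
  lead : D.LeadIs c (D.E.emb.iC (D.m.ω * D.B.v) * mon D.E s)

variable {D}

theorem linPart_add (c c' : Fin D.G.K → LaurentSeries D.E.T.F) :
    D.G.linPart (c + c') = D.G.linPart c + D.G.linPart c' := by
  simp [Growth.linPart, add_mul, Finset.sum_add_distrib]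

theorem LeadIs.add {c c' : Fin D.G.K → LaurentSeries D.E.T.F} {x : D.E.T.C} (h : D.LeadIs c x)
    (h' : ∀ a, OrdGE 1 (c' a)) : D.LeadIs (c + c') x := by
  obtain ⟨hc, e, he, hx⟩ := h
  refine ⟨fun a => OrdGE.add (hc a) (OrdGE.mono (by norm_num) (h' a)), e, he, ?_⟩
  rw [linPart_add, HahnSeries.coeff_add, D.G.linPart_ordGE h' 0 (by norm_num), add_zero]
  exact hx

/-- The gauge is invisible to functionals that kill brackets with the test element. -/
theorem τ_lead {c : Fin D.G.K → LaurentSeries D.E.T.F} {x N : D.E.T.C} (h : D.LeadIs c x)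
    (hN : N ∈ D.E.T.cent D.θ0)
    (hg : ∀ e ∈ D.E.E, D.E.T.τ (N * (e * D.m.Z D.E - D.m.Z D.E * e)) = 0) :
    D.E.T.τ (N * (D.G.linPart c).coeff 0) = D.E.T.τ (N * x) := by
  obtain ⟨-, e, he, hx⟩ := h
  obtain ⟨y, hy⟩ := hx
  obtain ⟨y', hy'⟩ := D.θ1_bracket (E_le_cent D.E he)
  have e1 : (D.G.linPart c).coeff 0 =
      D.E.T.ad D.θ0 y + (x - (D.E.T.ad D.θ0 y' + (e * D.m.Z D.E - D.m.Z D.E * e))) := by
    rw [hy, hy', sub_add_cancel, sub_add_cancel]
  rw [e1, mul_add, map_add, Stg.τ_cent_mul_ad hN, zero_add, mul_sub, map_sub, mul_add, map_add,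
    Stg.τ_cent_mul_ad hN, zero_add, hg e he, sub_zero]

theorem τ_centZ_gauge {z : D.E.T.C} (hz : z ∈ centZ D.m D.E) (g : D.E.T.C) :
    D.E.T.τ (z * (g * D.m.Z D.E - D.m.Z D.E * g)) = 0 := by
  rw [τ_mul_bracket D.E, Stg.mem_cent.1 hz.2, sub_self, zero_mul, map_zero]

namespace Side

variable {s : Fin 2} (S : D.Side s)

/-- The leading conjugator. -/
noncomputable abbrev h : D.E.T.C := S.H.coeff (-1)

theorem bracket : S.H * D.θp - D.θp * S.H = D.G.linPart S.c := by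
  have h := eq_neg_of_add_eq_zero_left S.eq
  rw [h]
  abel

theorem h_cent : S.h ∈ D.E.T.cent D.θ0 := by
  have h0 := coeff_bracket S.H_ord D.θp_ordGE
  rw [S.bracket, D.G.linPart_ordGE S.lead.1 _ (by norm_num : (-1 : ℤ) < 0), D.θp_zero] at h0
  exact Stg.mem_cent.2 (sub_eq_zero.1 h0.symm).symm

theorem exists_e : ∃ e ∈ D.E.E, S.h * D.m.Z D.E - D.m.Z D.E * S.h =
    D.E.emb.iC (D.m.ω * D.B.v) * mon D.E s - (e * D.m.Z D.E - D.m.Z D.E * e) := by
  obtain ⟨-, e, he, hx⟩ := S.lead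
  refine ⟨e, he, ?_⟩
  have hbr : ∀ {u : D.E.T.C}, u ∈ D.E.T.cent D.θ0 →
      u * D.m.Z D.E - D.m.Z D.E * u ∈ D.E.T.cent D.θ0 := fun hu =>
    sub_mem (Stg.mul_mem_cent hu D.Z_cent) (Stg.mul_mem_cent D.Z_cent hu)
  refine eq_of_ad D.E (hbr S.h_cent) (sub_mem (Stg.mul_mem_cent
    (iC_mem_cent D.E (W_le_cent D.o D.B.v_mem)) (E_le_cent D.E (mon_mem D.E s)))
    (hbr (E_le_cent D.E he))) ?_
  have h0 := coeff_bracket_next S.H_ord D.θp_ordGE
  rw [S.bracket, D.θp_zero, show (-1 : ℤ) + 1 = 0 by norm_num] at h0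
  have hy : D.E.T.ad D.θ0 (S.H.coeff 0) ∈ LinearMap.range (D.E.T.ad D.θ0) := ⟨_, rfl⟩
  have := sub_mem (sub_mem (add_mem hy hx) (D.θ1_bracket S.h_cent))
    (D.θ1_bracket (E_le_cent D.E he))
  convert this using 1
  rw [Stg.ad_apply, h0]
  abel

theorem gauge (i : Fin D.cor) {e' : D.E.T.C} (he' : e' ∈ D.E.E) :
    D.E.T.τ (D.E.emb.iC (D.B.lam i) * S.h * (e' * D.m.Z D.E - D.m.Z D.E * e')) = 0 := by
  obtain ⟨e, he, hh⟩ := S.exists_e
  exact τ_gauge D.m D.E D.hW D.B.v_mem (D.B.lam_mem i) (mon_mem D.E s) he he' hh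

theorem N_cent (i : Fin D.cor) : D.E.emb.iC (D.B.lam i) * S.h ∈ D.E.T.cent D.θ0 :=
  Stg.mul_mem_cent (lam_mem_KZ D.m D.E D.hW (D.B.lam_mem i)).1.1 S.h_cent

end Side

/-! ### Functionals -/

variable (Δ : D.Data)

/-- The quadratic part at a first argument, as a linear map in the second. -/
noncomputable def quadL (x : Fin D.G.K → D.E.T.laurent.F) :
    (Fin D.G.K → D.E.T.laurent.F) →ₗ[D.E.T.laurent.F] D.E.T.laurent.C where
  toFun y := ∑ a, x a • (⟨D.E.T.laurent, D.G.K, D.G.y, NS.shift a D.G.f⟩ : Obj).Df y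
  map_add' y y' := by simp only [map_add, smul_add, Finset.sum_add_distrib]
  map_smul' r y := by
    simp only [map_smul, RingHom.id_apply, Finset.smul_sum]
    exact Finset.sum_congr rfl fun a _ => smul_comm _ _ _

theorem quadL_apply (x y : Fin D.G.K → D.E.T.laurent.F) :
    quadL x y = quad2 (S := D.E.T.laurent) D.G.f x y := by
  show (∑ a, x a • (⟨D.E.T.laurent, D.G.K, D.G.y, NS.shift a D.G.f⟩ : Obj).Df y) = _
  refine Finset.sum_congr rfl fun a _ => ?_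
  rw [Algebra.smul_def]
  exact congrArg _ ((⟨D.E.T.laurent, D.G.K, D.G.y, NS.shift a D.G.f⟩ : Obj).lin1_eq_Df y).symm

/-- The pairing with one side against one lift. -/
noncomputable def phi {s : Fin 2} (S : D.Side s) (i : Fin D.cor) :
    (Fin D.G.K → D.E.T.laurent.F) →ₗ[D.E.T.laurent.F] D.E.T.laurent.F :=
  D.E.T.laurent.τ.comp ((LinearMap.mulLeft D.E.T.laurent.F (D.up (Δ.mu i))).comp
    (quadL S.c)) -
  D.E.T.laurent.τ.comp ((LinearMap.mulLeft D.E.T.laurent.F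
    (D.up (Δ.mu i * S.H))).comp D.ch.Df)

/-- The obstruction functional of one complement lift. -/
noncomputable def psi (j : Fin Δ.nz) :
    (Fin D.G.K → D.E.T.laurent.F) →ₗ[D.E.T.laurent.F] D.E.T.laurent.F :=
  D.E.T.laurent.τ.comp ((LinearMap.mulLeft D.E.T.laurent.F (D.up (Δ.zp j))).comp D.ch.Df)

theorem Df_eq (c : Fin D.G.K → LaurentSeries D.E.T.F) :
    D.down (D.ch.Df c) = D.G.linPart c := by
  show ∑ a, c a • D.down (D.G.f [a]) = _
  exact Finset.sum_congr rfl fun a _ => Algebra.smul_def _ _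

theorem quadL_ordGE {x y : Fin D.G.K → LaurentSeries D.E.T.F} (hx : ∀ a, OrdGE 0 (x a))
    (hy : ∀ a, OrdGE 0 (y a)) : OrdGE 0 (D.down (quadL x y)) := by
  have e : D.down (quadL x y) =
      ∑ a, x a • ∑ b, y b • D.down (D.G.f [a, b]) := by
    rfl
  rw [e]
  refine OrdGE.sum _ _ fun a _ => ?_
  exact (D.E.T.smul_ordGE (m := 0) (n := 0) (hx a) (OrdGE.sum _ _ fun b _ =>
    (D.E.T.smul_ordGE (m := 0) (n := 0) (hy b) (D.G.quad a b)).1)).1

theorem psi_lead (j : Fin Δ.nz) {c : Fin D.G.K → LaurentSeries D.E.T.F} {x : D.E.T.C}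
    (h : D.LeadIs c x) :
    OrdGE 0 (psi Δ j c : LaurentSeries D.E.T.F) ∧
      (psi Δ j c : LaurentSeries D.E.T.F).coeff 0 = D.E.T.τ (Δ.zz j * x) := by
  have e : (psi Δ j c : LaurentSeries D.E.T.F) =
      D.E.T.laurent.τ (D.up (Δ.zp j * D.G.linPart c)) := by
    rw [← Df_eq]
    rfl
  have hz := Δ.zp_int j
  have hl := D.G.linPart_ordGE h.1
  rw [e]
  refine ⟨Stg.τ_ordGE (OrdGE.mul hz hl |> OrdGE.mono (by norm_num)), ?_⟩
  rw [D.E.T.laurent_τ_coeff, coeff_mul_zero hz hl, Δ.zp_lead]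
  exact τ_lead h (Δ.zz_mem j).1 fun e _ => τ_centZ_gauge (Δ.zz_mem j) e

theorem phi_lead {s : Fin 2} (S : D.Side s) (i : Fin D.cor)
    {c : Fin D.G.K → LaurentSeries D.E.T.F} {x : D.E.T.C} (h : D.LeadIs c x) :
    OrdGE (-1) (phi Δ S i c : LaurentSeries D.E.T.F) ∧
      (phi Δ S i c : LaurentSeries D.E.T.F).coeff (-1) =
        - D.E.T.τ (D.E.emb.iC (D.B.lam i) * S.h * x) := by
  have e : (phi Δ S i c : LaurentSeries D.E.T.F) =
      D.downF (D.E.T.laurent.τ (D.up (Δ.mu i * D.down (quadL S.c c)))) -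
      D.downF (D.E.T.laurent.τ (D.up (Δ.mu i * S.H * D.G.linPart c))) := by
    rw [← Df_eq]
    rfl
  have h1 : OrdGE 0 (Δ.mu i * D.down (quadL S.c c)) :=
    OrdGE.mul (Δ.mu_int i) (quadL_ordGE S.lead.1 h.1)
  have hμH : OrdGE (-1) (Δ.mu i * S.H) := by
    simpa using OrdGE.mul (Δ.mu_int i) S.H_ord
  have hl := D.G.linPart_ordGE h.1
  have h2 : OrdGE (-1) (Δ.mu i * S.H * D.G.linPart c) := by simpa using OrdGE.mul hμH hl
  rw [e]
  refine ⟨OrdGE.sub (Stg.τ_ordGE (OrdGE.mono (by norm_num) h1)) (Stg.τ_ordGE h2), ?_⟩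
  rw [HahnSeries.coeff_sub, D.E.T.laurent_τ_coeff, D.E.T.laurent_τ_coeff, h1 (-1) (by norm_num),
    map_zero, zero_sub]
  have c1 := hμH.coeff_mul hl
  have c2 := (Δ.mu_int i).coeff_mul S.H_ord
  rw [add_zero] at c1
  rw [zero_add, Δ.mu_lead] at c2
  rw [c1, c2, τ_lead h (S.N_cent i) fun e he => S.gauge i he]

/-! ### The solver -/

/-- Constant directions lift to combinations of letters. -/
theorem exists_leadIs (η : Fin D.o.K → D.E.T.C) (hη : ∀ i, η i ∈ D.E.E) :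
    ∃ c, D.LeadIs c (∑ i, D.E.emb.iC (D.o.f [i]) * η i) := by
  obtain ⟨c, e, hc, he, h⟩ := D.G.exists_lift D.scalar_of_θ1 η hη
  exact ⟨c, hc, e, he, by rw [h]; simp [θ1, θp]⟩

theorem exists_leadIs_dir {w : D.o.S.C} (hw : w ∈ D.o.W) {k : D.E.T.C} (hk : k ∈ D.E.E) :
    ∃ c, D.LeadIs c (D.E.emb.iC w * k) := by
  obtain ⟨η, hη, hr⟩ := exists_dir D.E hw hk
  obtain ⟨c, hc, e, he, h⟩ := exists_leadIs η hη
  refine ⟨c, hc, e, he, ?_⟩
  convert add_mem h hr using 1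
  abel

/-- All values of the functionals are taken. -/
theorem solve {σ : Type} [Fintype σ] [DecidableEq σ] (p : σ → Fin 2) (hp : Function.Injective p)
    (S : ∀ s, D.Side (p s)) (t : σ → Fin D.cor → LaurentSeries D.E.T.F)
    (u : Fin Δ.nz → LaurentSeries D.E.T.F) :
    ∃ c : Fin D.G.K → LaurentSeries D.E.T.F, (∀ s i, phi Δ (S s) i c = t s i) ∧
      (∀ j, psi Δ j c = u j) ∧
      ((∀ s i, OrdGE 0 (t s i)) → (∀ j, OrdGE 1 (u j)) → ∀ a, OrdGE 1 (c a)) := by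
  classical
  let N : (σ × Fin D.cor) ⊕ Fin Δ.nz → D.E.T.C :=
    Sum.elim (fun k => D.E.emb.iC (D.B.lam k.2) * (S k.1).h) Δ.zz
  have hN : ∀ k, N k ∈ D.E.T.cent D.θ0 := by
    rintro (k | j)
    · exact (S k.1).N_cent k.2
    · exact (Δ.zz_mem j).1
  obtain ⟨L, hL⟩ : ∃ L : (Fin D.o.K → D.E.E) →ₗ[D.E.T.F] D.E.T.C,
      ∀ η, L η = ∑ i, D.E.emb.iC (D.o.f [i]) * (η i : D.E.T.C) :=
    ⟨∑ i, (LinearMap.mulLeft D.E.T.F (D.E.emb.iC (D.o.f [i]))).comp
      (D.E.E.subtype.comp (LinearMap.proj i)), fun η => by simp⟩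
  let ψ : (σ × Fin D.cor) ⊕ Fin Δ.nz → (Fin D.o.K → D.E.E) →ₗ[D.E.T.F] D.E.T.F := fun k =>
    D.E.T.τ.comp ((LinearMap.mulLeft D.E.T.F (N k)).comp L)
  have hψ : ∀ γ : (σ × Fin D.cor) ⊕ Fin Δ.nz → D.E.T.F,
      (∀ η, ∑ k, γ k * ψ k η = 0) → γ = 0 := by
    intro γ hγ
    have horth : ∑ k, γ k • N k ∈ D.E.T.orth (WE D.E) := by
      refine Stg.mem_orth_span.2 ?_
      rintro _ ⟨w, hw, e, he, rfl⟩
      obtain ⟨η, hη, y, hy⟩ := exists_dir D.E hw he
      have h1 := hγ fun i => ⟨η i, hη i⟩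
      have hc : ∑ k, γ k • N k ∈ D.E.T.cent D.θ0 :=
        Submodule.sum_mem _ fun k _ => Submodule.smul_mem _ _ (hN k)
      have h2 : D.E.T.τ ((∑ k, γ k • N k) * ∑ i, D.E.emb.iC (D.o.f [i]) * η i) = 0 := by
        rw [← h1, Finset.sum_mul, map_sum]
        refine Finset.sum_congr rfl fun k _ => ?_
        rw [smul_mul_assoc, map_smul, smul_eq_mul]
        simp only [ψ, LinearMap.comp_apply, LinearMap.mulLeft_apply, hL]
      rw [← sub_sub_cancel (∑ i, D.E.emb.iC (D.o.f [i]) * η i) (D.E.emb.iC w * e), ← hy,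
        mul_sub, map_sub, h2, Stg.τ_cent_mul_ad hc, sub_zero]
    have hsplit : ∑ k, γ k • N k =
        ∑ s, ∑ i, γ (Sum.inl (s, i)) • (D.E.emb.iC (D.B.lam i) * (S s).h) +
          ∑ j, γ (Sum.inr j) • Δ.zz j := by
      rw [Fintype.sum_sum_type, Fintype.sum_prod_type]
      rfl
    choose e he hh using fun s => (S s).exists_e
    have h3 := indep_top D.m D.E D.hW D.B D.hM p hp (fun s => (S s).h) e he hh
      (fun s i => γ (Sum.inl (s, i))) (z := ∑ j, γ (Sum.inr j) • Δ.zz j)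
      (Submodule.sum_mem _ fun j _ => Submodule.smul_mem _ _ (Δ.zz_mem j)) (hsplit ▸ horth)
    have h4 : ∀ s i, γ (Sum.inl (s, i)) = 0 := fun s i => congrFun (congrFun h3 s) i
    have h5 := Δ.zz_indep (fun j => γ (Sum.inr j)) (by simpa [hsplit, h4] using horth)
    funext k
    rcases k with ⟨s, i⟩ | j
    · exact h4 s i
    · exact congrFun h5 j
  choose η hη using fun l => exists_values ψ hψ (fun k => if k = l then 1 else 0)
  choose d hd using fun l => exists_leadIs (D := D) (fun i => (η l i : D.E.T.C)) fun i => (η l i).2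
  let sg : D.E.T.laurent.F := - (HahnSeries.single (1 : ℤ) (1 : D.E.T.F) : LaurentSeries D.E.T.F)
  have hsg : sg ≠ 0 := neg_ne_zero.2 (HahnSeries.single_ne_zero one_ne_zero)
  let Ψ : (σ × Fin D.cor) ⊕ Fin Δ.nz →
      (Fin D.G.K → D.E.T.laurent.F) →ₗ[D.E.T.laurent.F] D.E.T.laurent.F :=
    Sum.elim (fun k => sg • phi Δ (S k.1) k.2) (psi Δ)
  have hsg1 : OrdGE 1 (- HahnSeries.single (1 : ℤ) (1 : D.E.T.F) : LaurentSeries D.E.T.F) :=
    OrdGE.neg (OrdGE.single le_rfl _)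
  have hG : ∀ k l, OrdGE 0 (Ψ k (d l) : LaurentSeries D.E.T.F) ∧
      (Ψ k (d l) : LaurentSeries D.E.T.F).coeff 0 = if k = l then 1 else 0 := by
    intro k l
    rw [← hη l k]
    rcases k with k | j
    · obtain ⟨h1, h2⟩ := phi_lead Δ (S k.1) k.2 (hd l)
      have e : (Ψ (Sum.inl k) (d l) : LaurentSeries D.E.T.F) =
          (- HahnSeries.single (1 : ℤ) (1 : D.E.T.F) : LaurentSeries D.E.T.F) *
            D.downF (phi Δ (S k.1) k.2 (d l)) := rfl
      rw [e]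
      refine ⟨OrdGE.mono (by norm_num) (OrdGE.mul hsg1 h1), ?_⟩
      have h3 := hsg1.coeff_mul h1
      rw [show (1 : ℤ) + -1 = 0 by norm_num] at h3
      rw [h3, h2, HahnSeries.coeff_neg, HahnSeries.coeff_single_same]
      simp only [ψ, N, LinearMap.comp_apply, LinearMap.mulLeft_apply, hL, Sum.elim_inl, neg_mul,
        one_mul, neg_neg]
    · obtain ⟨h1, h2⟩ := psi_lead Δ j (hd l)
      refine ⟨h1, h2.trans ?_⟩
      simp only [ψ, N, LinearMap.comp_apply, LinearMap.mulLeft_apply, hL, Sum.elim_inr]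
  let tt : (σ × Fin D.cor) ⊕ Fin Δ.nz → LaurentSeries D.E.T.F :=
    Sum.elim (fun k => (- HahnSeries.single (1 : ℤ) (1 : D.E.T.F) : LaurentSeries D.E.T.F) * t k.1 k.2) u
  obtain ⟨x, hx, hxo⟩ := Stg.solve_of_lead (fun k l => (Ψ k (d l) : LaurentSeries D.E.T.F))
    (fun k l => (hG k l).1) (fun k l => (hG k l).2) tt
  let dd : (σ × Fin D.cor) ⊕ Fin Δ.nz → Fin D.G.K → D.E.T.laurent.F := d
  let xx : (σ × Fin D.cor) ⊕ Fin Δ.nz → D.E.T.laurent.F := x
  let c : Fin D.G.K → D.E.T.laurent.F := ∑ l, xx l • dd l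
  have hc : ∀ k, Ψ k c = tt k := by
    intro k
    simp only [c, map_sum, map_smul]
    rw [← hx k]
    refine Finset.sum_congr rfl fun l _ => ?_
    rw [smul_eq_mul, mul_comm]
    rfl
  refine ⟨c, fun s i => mul_left_cancel₀ hsg (hc (Sum.inl (s, i))), fun j => hc (Sum.inr j),
    fun ht hu a => ?_⟩
  rw [show c a = ∑ l, xx l * dd l a from Finset.sum_apply _ _ _]
  refine OrdGE.sum (R := D.E.T.F) _ _ fun l _ => ?_
  refine OrdGE.mono (by norm_num) (OrdGE.mul (hxo 1 (fun k => ?_) l) ((hd l).1 a))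
  rcases k with k | j
  · exact OrdGE.mono (by norm_num) (OrdGE.mul hsg1 (ht k.1 k.2))
  · exact hu j

end Setup

end Fin2

end P199K
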