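import Vale.Agent.P199.Kurosh.Stmts
import Vale.Agent.P199.Kurosh.Eval

/-! Products and substitutions of two-letter series degree by degree. -/

open Finset

namespace P199K

namespace NS

variable {K : ℕ} {C : Type} [Ring C]

theorem mul_congr : ∀ (w : List (Fin K)) (f f' g g' : NS K C),
    (∀ u, u.length ≤ w.length → f u = f' u) → (∀ u, u.length ≤ w.length → g u = g' u) →
    (f * g) w = (f' * g') w
  | [], f, f', g, g', hf, hg => by rw [mul_nil, mul_nil, hf [] le_rfl, hg [] le_rfl]
  | i :: w, f, f', g, g', hf, hg => by
      rw [mul_cons, mul_cons, hf [] (Nat.zero_le _), hg _ le_rfl,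
        mul_congr w (shift i f) (shift i f') g g'
          (fun u hu => hf (i :: u) (by simpa using hu))
          fun u hu => hg u (by simp only [List.length_cons]; omega)]

theorem mul_low_zero : ∀ (w : List (Fin K)) (d g : NS K C),
    (∀ u, u.length ≤ w.length → d u = 0) → (d * g) w = 0
  | w, d, g, h => by
      rw [mul_congr w d 0 g g (fun u hu => h u hu) (fun _ _ => rfl), zero_mul]
      rfl

theorem mul_low_zero_right : ∀ (w : List (Fin K)) (g d : NS K C),
    (∀ u, u.length ≤ w.length → d u = 0) → (g * d) w = 0
  | w, g, d, h => by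
      rw [mul_congr w g g d 0 (fun _ _ => rfl) (fun u hu => h u hu), mul_zero]
      rfl

/-- The top coefficient of a product with a series vanishing in lower degrees on the left. -/
theorem mul_top : ∀ (w : List (Fin K)) (d g : NS K C),
    (∀ u, u.length < w.length → d u = 0) → (d * g) w = d w * g []
  | [], d, g, _ => rfl
  | i :: w, d, g, h => by
      rw [mul_cons, h [] (by simp), zero_mul, zero_add,
        mul_top w (shift i d) g fun u hu => h (i :: u) (by simpa using hu), shift_apply]

/-- The top coefficient of a product with a series vanishing in lower degrees on the right. -/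
theorem mul_top_right : ∀ (w : List (Fin K)) (g d : NS K C),
    (∀ u, u.length < w.length → d u = 0) → (g * d) w = g [] * d w
  | [], g, d, _ => rfl
  | i :: w, g, d, h => by
      rw [mul_cons, mul_low_zero_right w (shift i g) d
        (fun u hu => h u (by simp only [List.length_cons]; omega)), add_zero]

/-- One degree above the bottom, series on the left. -/
theorem mul_next : ∀ (u : List (Fin K)) (j : Fin K) (d g : NS K C),
    (∀ v, v.length < u.length → d v = 0) →
    (d * g) (u ++ [j]) = d (u ++ [j]) * g [] + d u * g [j]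
  | [], j, d, g, _ => by
      show (d * g) [j] = d [j] * g [] + d [] * g [j]
      rw [mul_cons, mul_nil, shift_apply, add_comm]
  | i :: u, j, d, g, h => by
      rw [List.cons_append, mul_cons, h [] (by simp), zero_mul, zero_add,
        mul_next u j (shift i d) g fun v hv => h (i :: v) (by simpa using hv), shift_apply,
        shift_apply]

/-- One degree above the bottom, series on the right. -/
theorem mul_next_right (i : Fin K) (u : List (Fin K)) (g d : NS K C)
    (h : ∀ v, v.length < u.length → d v = 0) :
    (g * d) (i :: u) = g [] * d (i :: u) + g [i] * d u := by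
  rw [mul_cons, mul_top_right u (shift i g) d h, shift_apply]

theorem eq_zero_of_mul_eq_zero {g h : NS K C} (h1 : h [] = 1) (hg : g * h = 0) : g = 0 := by
  refine NS.ext fun w => ?_
  suffices ∀ n, ∀ w : List (Fin K), w.length = n → g w = 0 from this _ w rfl
  intro n
  induction n using Nat.strong_induction_on with
  | _ n ih =>
    intro w hw
    have := congrArg (fun f : NS K C => f w) hg
    rwa [mul_top w g h (fun u hu => ih u.length (hw ▸ hu) u rfl), h1, mul_one] at this

end NS

section Comp

variable {S : Stg} {K : ℕ} (Y Y' : Fin K → NS 2 S.F)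

/-- The letters substituted by `compY`. -/
def yC : Fin K → NS 2 S.C := fun i u => algebraMap S.F S.C (Y i u)

@[simp] theorem yC_apply (i : Fin K) (u : List (Fin 2)) :
    yC Y i u = algebraMap S.F S.C (Y i u) := rfl

theorem yC_comm (c : S.C) (i : Fin K) :
    (NS.constHom c : NS 2 S.C) * yC Y i = yC Y i * NS.constHom c := by
  refine NS.ext fun w => ?_
  simp [NS.const_mul, NS.mul_const, Algebra.commutes]

theorem compY_eq_trunc (f : NS K S.C) (w : List (Fin 2)) :
    compY f Y w = NS.trunc (NS.constHom : S.C →+* NS 2 S.C) (yC Y) w.length f w := by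
  rw [← NS.evalTrunc_eq_trunc _ _ (yC_comm Y)]
  rfl

variable {Y Y'}

theorem trunc_stable (hY : ∀ i, Y i [] = 0) : ∀ (n : ℕ) (w : List (Fin 2)) (f : NS K S.C),
    w.length ≤ n →
      NS.trunc (NS.constHom : S.C →+* NS 2 S.C) (yC Y) n f w = compY f Y w := by
  intro n
  induction n using Nat.strong_induction_on with
  | _ n ih =>
    intro w f hw
    rw [compY_eq_trunc]
    rcases n with _ | n
    · rw [List.length_eq_zero_iff.mp (Nat.le_zero.mp hw)]
      rfl
    rcases w with _ | ⟨i, u⟩
    · simp only [List.length_nil, NS.trunc, NS.add_apply, NS.sum_apply, NS.mul_nil, yC_apply, hY,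
        map_zero, zero_mul, Finset.sum_const_zero, add_zero]
    · simp only [List.length_cons, NS.trunc, NS.add_apply, NS.sum_apply, NS.constHom_apply,
        NS.const_cons, zero_add, NS.mul_cons, yC_apply, hY, map_zero, zero_mul]
      refine Finset.sum_congr rfl fun a _ => NS.mul_congr u _ _ _ _ (fun _ _ => rfl) fun v hv => ?_
      simp only [List.length_cons] at hw
      rw [ih n (Nat.lt_succ_self n) v _ (by omega),
        ih u.length (Nat.lt_succ_of_le (by omega)) v _ hv]

theorem compY_nil (f : NS K S.C) : compY f Y [] = f [] := by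
  rw [compY_eq_trunc]
  rfl

theorem compY_cons (hY : ∀ i, Y i [] = 0) (f : NS K S.C) (i : Fin 2) (w : List (Fin 2)) :
    compY f Y (i :: w) =
      ∑ a, (NS.shift i (yC Y a) * compY (NS.shift a f) Y) w := by
  rw [compY_eq_trunc]
  simp only [List.length_cons, NS.trunc, NS.add_apply, NS.sum_apply, NS.constHom_apply,
    NS.const_cons, zero_add, NS.mul_cons, yC_apply, hY, map_zero, zero_mul]
  exact Finset.sum_congr rfl fun a _ => NS.mul_congr w _ _ _ _ (fun _ _ => rfl) fun v hv =>
    trunc_stable hY w.length v _ hv

/-- The linear part of a series applied to a tuple. -/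
def lin1 (f : NS K S.C) (x : Fin K → S.F) : S.C := ∑ a, algebraMap S.F S.C (x a) * f [a]

/-- The quadratic part of a series applied to two tuples. -/
def quad2 (f : NS K S.C) (x y : Fin K → S.F) : S.C :=
  ∑ a, algebraMap S.F S.C (x a) * lin1 (NS.shift a f) y

theorem compY_single (hY : ∀ i, Y i [] = 0) (f : NS K S.C) (s : Fin 2) :
    compY f Y [s] = lin1 f fun a => Y a [s] := by
  simp only [compY_cons hY, NS.mul_nil, compY_nil, NS.shift_apply, yC_apply, lin1]

theorem compY_congr (hY : ∀ i, Y i [] = 0) (hY' : ∀ i, Y' i [] = 0) :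
    ∀ (w : List (Fin 2)) (f : NS K S.C),
      (∀ i u, u.length ≤ w.length → Y i u = Y' i u) → compY f Y w = compY f Y' w := by
  intro w
  induction hn : w.length using Nat.strong_induction_on generalizing w with
  | _ n ih =>
    intro f h
    subst hn
    rcases w with _ | ⟨i, u⟩
    · rw [compY_nil, compY_nil]
    · rw [compY_cons hY, compY_cons hY']
      refine Finset.sum_congr rfl fun a _ => NS.mul_congr u _ _ _ _ (fun v hv => ?_) fun v hv => ?_
      · simp only [NS.shift_apply, yC_apply]
        rw [h a (i :: v) (by simpa using hv)]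
      · exact ih v.length (by simp only [List.length_cons]; omega) v rfl _ fun b v' hv' =>
          h b v' (by simp only [List.length_cons]; omega)

variable {m : ℕ}

theorem compY_change_top (hY : ∀ i, Y i [] = 0) (hY' : ∀ i, Y' i [] = 0)
    (hlow : ∀ i u, u.length < m → Y i u = Y' i u) (w : List (Fin 2)) (hw : w.length = m) (hm : 1 ≤ m)
    (f : NS K S.C) :
    compY f Y' w - compY f Y w = lin1 f fun a => Y' a w - Y a w := by
  rcases w with _ | ⟨i, u⟩
  · simp at hw; omega
  simp only [List.length_cons] at hw
  rw [compY_cons hY, compY_cons hY', lin1, ← Finset.sum_sub_distrib]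
  refine Finset.sum_congr rfl fun a _ => ?_
  have hg : (NS.shift i (yC Y' a) * compY (NS.shift a f) Y') u =
      (NS.shift i (yC Y' a) * compY (NS.shift a f) Y) u :=
    NS.mul_congr u _ _ _ _ (fun _ _ => rfl) fun v hv =>
      compY_congr hY' hY v _ fun b v' hv' => (hlow b v' (by omega)).symm
  rw [hg, ← NS.sub_apply, ← sub_mul, NS.mul_top u _ _ fun v hv => by
    simp only [NS.sub_apply, NS.shift_apply, yC_apply]
    rw [hlow a (i :: v) (by simp only [List.length_cons]; omega), sub_self]]
  simp [compY_nil]

theorem compY_change_next (hY : ∀ i, Y i [] = 0) (hY' : ∀ i, Y' i [] = 0)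
    (hlow : ∀ i u, u.length < m → Y i u = Y' i u) (hm : 2 ≤ m)
    (w : List (Fin 2)) (i j : Fin 2) (u u' : List (Fin 2)) (hw : w = i :: u) (hw' : w = u' ++ [j])
    (hu : u.length = m) (htop : ∀ a, Y a w = Y' a w) (f : NS K S.C) :
    compY f Y' w - compY f Y w =
      quad2 f (fun a => Y a [i]) (fun a => Y' a u - Y a u) +
        quad2 f (fun a => Y' a u' - Y a u') (fun a => Y a [j]) := by
  obtain ⟨v, rfl⟩ : ∃ v, u' = i :: v := by
    rcases u' with _ | ⟨k, v⟩
    · rw [hw] at hw'
      simp at hw'
      rw [hw'.2] at hu
      simp at hu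
      omega
    · rw [hw] at hw'
      simp only [List.cons_append, List.cons.injEq] at hw'
      exact ⟨v, by rw [hw'.1]⟩
  have huv : u = v ++ [j] := by
    rw [hw] at hw'
    simpa using hw'
  subst hw
  have hv : v.length + 1 = m := by rw [← hu, huv]; simp
  rw [compY_cons hY, compY_cons hY', quad2, quad2, ← Finset.sum_sub_distrib,
    ← Finset.sum_add_distrib]
  refine Finset.sum_congr rfl fun a _ => ?_
  set p := NS.shift i (yC Y a)
  set p' := NS.shift i (yC Y' a)
  set g := compY (NS.shift a f) Y
  set g' := compY (NS.shift a f) Y'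
  have hgl : ∀ z : List (Fin 2), z.length < u.length → (g' - g) z = 0 := fun z hz => by
    rw [NS.sub_apply, sub_eq_zero]
    exact compY_congr hY' hY z _ fun b z' hz' => (hlow b z' (by omega)).symm
  have e : p' * g' - p * g = (p' - p) * g' + p * (g' - g) := by
    rw [sub_mul, mul_sub]
    abel
  rw [← NS.sub_apply, e, NS.add_apply, NS.mul_top_right u p (g' - g) hgl, huv,
    NS.mul_next v j (p' - p) g' fun z hz => by
      simp only [NS.sub_apply, NS.shift_apply, yC_apply, p, p']
      rw [hlow a (i :: z) (by simp only [List.length_cons]; omega), sub_self]]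
  have e1 : (p' - p) (v ++ [j]) = 0 := by
    simp only [NS.sub_apply, NS.shift_apply, yC_apply, p, p', ← huv, htop, sub_self]
  have e2 : g' [j] = lin1 (NS.shift a f) fun b => Y b [j] := by
    show compY (NS.shift a f) Y' [j] = _
    rw [compY_single hY']
    exact congrArg _ (funext fun b => (hlow b [j] (by simp; omega)).symm)
  have e3 : (g' - g) (v ++ [j]) = lin1 (NS.shift a f) fun b => Y' b u - Y b u := by
    rw [← huv, NS.sub_apply]
    exact compY_change_top hY hY' hlow u hu (by omega) _
  rw [e1, e2, e3, zero_mul, zero_add, add_comm, huv]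
  simp [p, p']

end Comp

end P199K
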